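import Vale.Agent.P167.H411.B7.Calc
import Vale.Agent.P167.CA.Final
import Vale.Agent.P167.CL.Bump
import Vale.Agent.P167.LOC.Defs2

/-!
# P167, LOC: the two-point function (`CL.I_E2`) from the core and the decoupling at the base point

`i_e2 : CA.I_CORE → LOC.I_loc1 → CL.I_E2`. With `F₁ = φ_ρ - f_a`, `F₂ = φ_ρ - f_b` (neutral):
`V(F₁) V(-F₁) → exp (- s (F₁, N F₁)) ≥ c ρ^(1/3)`, so `V(F₁) = Y V(-f_a) (1 + O(ρ^(1/12)))`, and the
same for `f_b`; `V(f_b - f_a) V(F₂) / V(F₁) → exp (s (f_b - f_a, N F₂))` and the right-hand side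
tends to the value as `ρ → 0`.
-/

open Set Filter Topology Bornology MeasureTheory

namespace Vale.Agent.P167.LOC

open Vale.Agent.P167.BVP (Test)
open Vale.Agent.P167.H411.B7

theorem rel_err {v w y m C c ρ : ℝ} (hρ : 0 < ρ) (hc : 0 < c) (hv : 0 < v)
    (h1 : c / 2 * ρ ^ (1 / 3 : ℝ) < v * w) (h2 : |v - y * m| * |w| ≤ C * ρ ^ (5 / 12 : ℝ)) :
    |v - y * m| ≤ 2 * (|C| / c) * ρ ^ (1 / 12 : ℝ) * v := by
  have h3 : 0 < ρ ^ (1 / 3 : ℝ) := Real.rpow_pos_of_pos hρ _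
  have h12 : 0 < ρ ^ (1 / 12 : ℝ) := Real.rpow_pos_of_pos hρ _
  have hvw : 0 < v * w := lt_trans (by positivity) h1
  have hw : 0 < w := (mul_pos_iff_of_pos_left hv).1 hvw
  have e5 : ρ ^ (5 / 12 : ℝ) = ρ ^ (1 / 12 : ℝ) * ρ ^ (1 / 3 : ℝ) := by
    rw [← Real.rpow_add hρ]; norm_num
  rw [abs_of_pos hw, e5] at h2
  set t := |v - y * m| with ht
  have ht0 : 0 ≤ t := abs_nonneg _
  have h4 : t * (c / 2 * ρ ^ (1 / 3 : ℝ)) ≤ |C| * (ρ ^ (1 / 12 : ℝ) * ρ ^ (1 / 3 : ℝ)) * v := by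
    calc t * (c / 2 * ρ ^ (1 / 3 : ℝ)) ≤ t * (v * w) := by gcongr
      _ = (t * w) * v := by ring
      _ ≤ (C * (ρ ^ (1 / 12 : ℝ) * ρ ^ (1 / 3 : ℝ))) * v := by gcongr
      _ ≤ (|C| * (ρ ^ (1 / 12 : ℝ) * ρ ^ (1 / 3 : ℝ))) * v := by
          gcongr
          exact le_abs_self C
  have h5 : 2 * (|C| / c) * ρ ^ (1 / 12 : ℝ) * v * (c / 2 * ρ ^ (1 / 3 : ℝ)) =
      |C| * (ρ ^ (1 / 12 : ℝ) * ρ ^ (1 / 3 : ℝ)) * v := by
    field_simp
  rw [← h5] at h4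
  exact le_of_mul_le_mul_right h4 (by positivity)

theorem quot_bound {v1 v2 m1 m2 y q δ : ℝ} (h1 : 0 < v1) (h2 : 0 < v2) (hδ0 : 0 ≤ δ)
    (hδ : δ ≤ 1 / 2) (e1 : |v1 - y * m1| ≤ δ * v1) (e2 : |v2 - y * m2| ≤ δ * v2) :
    |q * m2 / m1 - q * v2 / v1| ≤ 4 * δ * |q * v2 / v1| := by
  have a1 : v1 / 2 ≤ y * m1 := by
    have := (abs_le.1 e1).2
    nlinarith
  have ha : 0 < y * m1 := lt_of_lt_of_le (by positivity) a1
  have hy : y ≠ 0 := fun h => by rw [h, zero_mul] at ha; exact lt_irrefl _ ha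
  have hm : m1 ≠ 0 := fun h => by rw [h, mul_zero] at ha; exact lt_irrefl _ ha
  have e : q * m2 / m1 - q * v2 / v1 =
      (q * v2 / v1) * (((y * m2 - v2) * v1 - v2 * (y * m1 - v1)) / (v2 * (y * m1))) := by
    field_simp
    ring
  rw [e, abs_mul, mul_comm (4 * δ)]
  refine mul_le_mul_of_nonneg_left ?_ (abs_nonneg _)
  rw [abs_div, abs_of_pos (mul_pos h2 ha), div_le_iff₀ (mul_pos h2 ha)]
  calc |(y * m2 - v2) * v1 - v2 * (y * m1 - v1)|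
      ≤ |(y * m2 - v2) * v1| + |v2 * (y * m1 - v1)| := abs_sub _ _
    _ = |v2 - y * m2| * v1 + v2 * |v1 - y * m1| := by
        rw [abs_mul, abs_mul, abs_of_pos h1, abs_of_pos h2, abs_sub_comm (y * m2),
          abs_sub_comm (y * m1)]
    _ ≤ δ * v2 * v1 + v2 * (δ * v1) := by gcongr
    _ = 4 * δ * (v2 * (v1 / 2)) := by ring
    _ ≤ 4 * δ * (v2 * (y * m1)) := by gcongr

/-- The relative error of the factorisation, for one charge. -/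
theorem rel_ev (hcore : CA.I_CORE) {S : CA.Dat} {ψ g : ℂ → ℂ} (hr : S.r = 0)
    (hP : CA.Pair S.P ψ g)
    (hq : Tendsto ψ (cobounded ℂ ⊓ 𝓟 {z | 0 ≤ z.im}) (𝓝 S.bp)) {χ : ℂ → ℝ} (hχ : CL.Bmp0 χ)
    {Y : ℝ → ℕ → ℝ} {f : ℂ → ℝ} (hf : Test S.P f) (mf : ∫ z, f z = Real.pi / 3)
    (hY : ∃ C : ℝ, ∀ᶠ ρ : ℝ in 𝓝[>] 0, ∀ᶠ n : ℕ in atTop,
      |S.V n (fun z => CL.bmp χ S.bp ρ z - f z) - Y ρ n * S.V n (fun z => - f z)| *
        |S.V n (fun z => f z - CL.bmp χ S.bp ρ z)| ≤ C * ρ ^ (5 / 12 : ℝ)) :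
    ∃ M : ℝ, 0 ≤ M ∧ ∀ᶠ ρ : ℝ in 𝓝[>] 0, S.FF (fun z => CL.bmp χ S.bp ρ z - f z) ∧
      ∀ᶠ n : ℕ in atTop, 0 < S.V n (fun z => CL.bmp χ S.bp ρ z - f z) ∧
      |S.V n (fun z => CL.bmp χ S.bp ρ z - f z) - Y ρ n * S.V n (fun z => - f z)| ≤
        M * ρ ^ (1 / 12 : ℝ) * S.V n (fun z => CL.bmp χ S.bp ρ z - f z) := by
  obtain ⟨C, hC⟩ := hY
  obtain ⟨c, hc, ρ₀, hρ₀, k⟩ := calc_exp hr hP hq hχ hf mf
  have htp : 0 < min S.tp (1 - S.tp) := lt_min S.tp0 (by linarith [S.tp1])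
  refine ⟨2 * (|C| / c), by positivity, ?_⟩
  have g1 : ∀ᶠ ρ : ℝ in 𝓝[>] 0, ρ < min ρ₀ (min S.tp (1 - S.tp)) :=
    (gt_mem_nhds (lt_min hρ₀ htp)).filter_mono nhdsWithin_le_nhds
  filter_upwards [hC, g1, self_mem_nhdsWithin] with ρ h1 h2 h3
  have h3' : (0 : ℝ) < ρ := h3
  obtain ⟨hb, -, mb⟩ := Vale.Agent.P167.H411.B7.bmp_test hr hχ h3'
    (h2.trans_le (min_le_right _ _))
  have hfi : Integrable f := hf.1.continuous.integrable_of_hasCompactSupport hf.2.1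
  have hbi : Integrable (CL.bmp χ S.bp ρ) :=
    hb.1.continuous.integrable_of_hasCompactSupport hb.2.1
  have hF : S.FF (fun z => CL.bmp χ S.bp ρ z - f z) := by
    refine ⟨⟨hb.1.sub hf.1, hb.2.1.sub hf.2.1,
      (tsupport_sub (CL.bmp χ S.bp ρ) f).trans (union_subset hb.2.2 hf.2.2)⟩, ?_⟩
    rw [integral_sub hbi hfi, mb, mf, sub_self]
  refine ⟨hF, ?_⟩
  obtain ⟨c', K, hc', hVb⟩ := CA.V_bounds hcore hP hF
  have h4 := CA.V_mul_neg hcore hP hF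
  have h5 : c / 2 * ρ ^ (1 / 3 : ℝ) < Real.exp (-(CA.sc * CA.en g
      (fun z => CL.bmp χ S.bp ρ z - f z) (fun z => CL.bmp χ S.bp ρ z - f z))) := by
    have h6 := k ρ h3' (h2.le.trans (min_le_left _ _))
    have : 0 < c * ρ ^ (1 / 3 : ℝ) := by positivity
    linarith
  have h7 := h4.eventually_const_lt h5
  filter_upwards [h1, hVb, h7] with n n1 n2 n3
  have n4 : 0 < S.V n (fun z => CL.bmp χ S.bp ρ z - f z) := lt_of_lt_of_le hc' n2.1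
  refine ⟨n4, ?_⟩
  have e : (fun z => -(CL.bmp χ S.bp ρ z - f z)) = fun z => f z - CL.bmp χ S.bp ρ z := by
    funext z; ring
  rw [e] at n3
  exact rel_err h3' hc n4 n3 n1

/-- **The two-point function** from the core and the decoupling at the base point. -/
theorem i_e2 (hcore : CA.I_CORE) (hloc : I_loc1) : CL.I_E2 := by
  intro S ψ g hr hP hq fa fb hfa hfb pa pb ma mb
  obtain ⟨χ, hχ⟩ := CL.exists_bmp0
  obtain ⟨Y, hY⟩ := hloc S hr χ hχ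
  obtain ⟨Ma, hMa, ka⟩ := rel_ev hcore hr hP hq hχ hfa ma (hY fa hfa pa ma)
  obtain ⟨Mb, hMb, kb⟩ := rel_ev hcore hr hP hq hχ hfb mb (hY fb hfb pb mb)
  have hlim := calc_lim hr hP hq hχ hfa hfb ma mb
  set L := Real.exp (CA.sc * (CA.en g fa fb - CA.en g fb fb)) with hL
  have hlim2 : Tendsto (fun ρ : ℝ => Real.exp (CA.sc * CA.en g (fun z => fb z - fa z)
      (fun z => CL.bmp χ S.bp ρ z - fb z))) (𝓝[>] 0) (𝓝 L) :=
    (Real.continuous_exp.tendsto _).comp (hlim.const_mul CA.sc)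
  rw [Metric.tendsto_nhds]
  intro ε hε
  have hL0 : 0 < L := Real.exp_pos _
  have hM : 0 ≤ Ma + Mb := add_nonneg hMa hMb
  have hpow : Tendsto (fun ρ : ℝ => 4 * ((Ma + Mb) * ρ ^ (1 / 12 : ℝ)) * (L + 2)) (𝓝[>] 0)
      (𝓝 0) := by
    have h1 : Tendsto (fun ρ : ℝ => ρ ^ (1 / 12 : ℝ)) (𝓝[>] 0) (𝓝 0) := by
      have h2 := (Real.continuousAt_rpow_const 0 (1 / 12 : ℝ) (Or.inr (by norm_num))).tendsto
      rw [Real.zero_rpow (by norm_num)] at h2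
      exact h2.mono_left nhdsWithin_le_nhds
    have h3 := ((h1.const_mul (Ma + Mb)).const_mul 4).mul_const (L + 2)
    simpa using h3
  have g1 : ∀ᶠ ρ : ℝ in 𝓝[>] 0, 4 * ((Ma + Mb) * ρ ^ (1 / 12 : ℝ)) * (L + 2) <
      min (ε / 3) 2 := hpow.eventually_lt_const (by positivity)
  have g2 : ∀ᶠ ρ : ℝ in 𝓝[>] 0, dist (Real.exp (CA.sc * CA.en g (fun z => fb z - fa z)
      (fun z => CL.bmp χ S.bp ρ z - fb z))) L < min (ε / 3) 1 :=
    (Metric.tendsto_nhds.1 hlim2) _ (by positivity)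
  obtain ⟨ρ, ⟨hFa, ea⟩, ⟨hFb, eb⟩, d1, d2, hρ⟩ :=
    (ka.and (kb.and (g1.and (g2.and self_mem_nhdsWithin)))).exists
  have hρ0 : (0 : ℝ) < ρ := hρ
  set A := Real.exp (CA.sc * CA.en g (fun z => fb z - fa z)
    (fun z => CL.bmp χ S.bp ρ z - fb z)) with hA
  have hV := CA.V_quot' hP hcore hFa hFb
  have e : (fun z => CL.bmp χ S.bp ρ z - fa z - (CL.bmp χ S.bp ρ z - fb z)) =
      fun z => fb z - fa z := by
    funext z; ring
  rw [e] at hV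
  have g3 := (Metric.tendsto_nhds.1 hV) (min (ε / 3) 1) (by positivity)
  have hp12 : 0 < ρ ^ (1 / 12 : ℝ) := Real.rpow_pos_of_pos hρ0 _
  set δ := (Ma + Mb) * ρ ^ (1 / 12 : ℝ) with hδ
  have hδ0 : 0 ≤ δ := by positivity
  have hδ1 : δ ≤ 1 / 2 := by
    have := lt_of_lt_of_le d1 (min_le_right _ _)
    nlinarith
  filter_upwards [ea, eb, g3] with n na nb n3
  set q := S.V n (fun z => fb z - fa z)
  set v1 := S.V n (fun z => CL.bmp χ S.bp ρ z - fa z)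
  set v2 := S.V n (fun z => CL.bmp χ S.bp ρ z - fb z)
  set m1 := S.V n (fun z => - fa z)
  set m2 := S.V n (fun z => - fb z)
  have q1 : |v1 - Y ρ n * m1| ≤ δ * v1 := by
    refine na.2.trans ?_
    rw [hδ]
    have := na.1
    gcongr
    linarith
  have q2 : |v2 - Y ρ n * m2| ≤ δ * v2 := by
    refine nb.2.trans ?_
    rw [hδ]
    have := nb.1
    gcongr
    linarith
  have q3 := quot_bound (q := q) na.1 nb.1 hδ0 hδ1 q1 q2
  rw [Real.dist_eq] at d2 n3 ⊢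
  have n4 := lt_min_iff.1 n3
  have d4 := lt_min_iff.1 d2
  have q4 : |q * v2 / v1| ≤ L + 2 := by
    rw [abs_le]
    constructor <;> linarith [(abs_lt.1 n4.2).1, (abs_lt.1 n4.2).2, (abs_lt.1 d4.2).1,
      (abs_lt.1 d4.2).2]
  have q5 : |q * m2 / m1 - q * v2 / v1| < ε / 3 :=
    (q3.trans (mul_le_mul_of_nonneg_left q4 (by positivity))).trans_lt
      (lt_of_lt_of_le d1 (min_le_left _ _))
  have e2 : q * m2 / m1 - L = (q * m2 / m1 - q * v2 / v1) + (q * v2 / v1 - A) + (A - L) := by ring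
  rw [e2]
  refine (abs_add_three _ _ _).trans_lt ?_
  linarith [n4.1, d4.1]

end Vale.Agent.P167.LOC
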