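import Vale.Agent.P167.H411.B7.Ca
import Vale.Agent.P167.CL.TopDefs

/-!
# P167, block B7u: the input `I_B7` of `CL/TopDefs`
-/

open Set Metric Filter Topology Bornology MeasureTheory
open scoped ComplexConjugate ContDiff

namespace Vale.Agent.P167.H411.B7

open Vale.Agent.P153.R2.R1
open Vale.Agent.P167.BVP (Flat nker npot Test)
open Vale.Agent.P167.CL (Bmp0 bmp FlatAt Off)

variable {ψ g : ℂ → ℂ} {P : Set ℂ} {q : ℂ}

theorem tendsto_add_real (x : ℝ) :
    Tendsto (fun z : ℂ => z + x) (cobounded ℂ ⊓ 𝓟 {z | 0 ≤ z.im})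
      (cobounded ℂ ⊓ 𝓟 {z | 0 ≤ z.im}) := by
  rw [tendsto_inf, tendsto_principal]
  constructor
  · exact (tendsto_add_const_cobounded (x : ℂ)).mono_left inf_le_left
  · filter_upwards [mem_inf_of_right (mem_principal_self _)] with z hz
    have : 0 ≤ z.im := hz
    show 0 ≤ (z + (x : ℂ)).im
    simpa using this

/-- Translation of the uniformizer. -/
theorem isU_of_pair' (h : CA.Pair P ψ g)
    (hq : Tendsto ψ (cobounded ℂ ⊓ 𝓟 {z | 0 ≤ z.im}) (𝓝 q)) (x : ℝ) :
    IsU (fun z => ψ (z + x)) P (ψ x) q where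
  diff := h.diff.comp (by fun_prop) fun z hz => by
    have : 0 < z.im := hz
    show 0 < (z + (x : ℂ)).im
    simpa using this
  inj := by
    intro z hz w hw e
    have hz' : 0 < z.im := hz
    have hw' : 0 < w.im := hw
    have := h.inj (show z + (x : ℂ) ∈ {z : ℂ | 0 ≤ z.im} by
      show 0 ≤ (z + (x : ℂ)).im
      simpa using hz'.le) (show w + (x : ℂ) ∈ {z : ℂ | 0 ≤ z.im} by
      show 0 ≤ (w + (x : ℂ)).im
      simpa using hw'.le) e
    exact add_right_cancel this
  img := by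
    rw [← h.img]
    ext y
    constructor
    · rintro ⟨z, hz, rfl⟩
      refine ⟨z + x, ?_, rfl⟩
      have : 0 < z.im := hz
      show 0 < (z + (x : ℂ)).im
      simpa using this
    · rintro ⟨z, hz, rfl⟩
      refine ⟨z - x, ?_, ?_⟩
      · have : 0 < z.im := hz
        show 0 < (z - (x : ℂ)).im
        simpa using this
      · simp only [sub_add_cancel]
  cont := h.cont.comp (by fun_prop) fun z hz => by
    have : 0 ≤ z.im := hz
    show 0 ≤ (z + (x : ℂ)).im
    simpa using this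
  zero := by simp only [zero_add]
  infty := hq.comp (tendsto_add_real x)

theorem nker_sub_real (ζ ξ : ℂ) (x : ℝ) : nker (ζ - x) (ξ - x) = nker ζ ξ := by
  unfold nker
  rw [map_sub, Complex.conj_ofReal, sub_sub_sub_cancel_right, sub_sub_sub_cancel_right]

theorem en_sub_real (g : ℂ → ℂ) (x : ℝ) (h f : ℂ → ℝ) : en (fun z => g z - x) h f = en g h f := by
  unfold en npot
  simp only [nker_sub_real]

theorem flat_of_flatAt {b : ℂ} {r : ℝ} (hr : 0 < r) (h : FlatAt P b r) :
    Flat P b Complex.I r where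
  norm := Complex.norm_I
  pos := hr
  mem := by
    intro z hz
    rw [mem_ball, dist_eq_norm] at hz
    have h1 : |z.re - b.re| < r := by
      have := Complex.abs_re_le_norm (z - b)
      rw [Complex.sub_re] at this
      linarith
    have h2 : |z.im - b.im| < r := by
      have := Complex.abs_im_le_norm (z - b)
      rw [Complex.sub_im] at this
      linarith
    rw [h z h1 h2]
    simp

theorem notMem_of_off {b a : ℂ} {r : ℝ} (h : Off b r a) : a ∉ ball b r := by
  intro ha
  rw [mem_ball, dist_eq_norm] at ha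
  have h1 := Complex.abs_re_le_norm (a - b)
  have h2 := Complex.abs_im_le_norm (a - b)
  rw [Complex.sub_re] at h1
  rw [Complex.sub_im] at h2
  rcases h with h | h <;> linarith

/-- The normalised shape. -/
noncomputable def nrm (χ : ℂ → ℝ) (z : ℂ) : ℝ := 3 / Real.pi * χ z

theorem shp_nrm {χ : ℂ → ℝ} (h : Bmp0 χ) : Shp Complex.I (nrm χ) where
  smooth := contDiff_const.mul h.smooth
  supp := by
    have h1 : tsupport (nrm χ) ⊆ tsupport χ := by
      refine closure_minimal ?_ (isClosed_tsupport χ)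
      intro z hz
      refine subset_tsupport _ fun h0 => hz ?_
      simp only [nrm, h0, mul_zero]
    intro z hz
    obtain ⟨a1, a2, a3⟩ := h.supp (h1 hz)
    constructor
    · rw [mem_closedBall_zero_iff]
      refine (Complex.norm_le_abs_re_add_abs_im z).trans ?_
      rw [abs_of_nonneg (by linarith : 0 ≤ z.im)]
      linarith
    · show 0 < (z * conj Complex.I).re
      simp
      linarith
  nonneg := fun z => mul_nonneg (by positivity) (h.nonneg z)
  mass := by
    unfold nrm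
    rw [integral_const_mul, h.mass]
    have := Real.pi_ne_zero
    field_simp

theorem bmp_eq (χ : ℂ → ℝ) (b : ℂ) (η : ℝ) : bmp χ b η = ch (scb (nrm χ) b η) := by
  funext z
  unfold bmp ch scb nrm
  have := Real.pi_ne_zero
  field_simp

/-- **The input `I_B7`.** -/
theorem i_b7 : CL.I_B7 := by
  intro χ hχ
  have hS := shp_nrm hχ
  set c : ℝ := cs Complex.I (nrm χ) with hc
  have hc0 : 0 < c := cs_pos _ _
  refine ⟨c, hc0, fun ε hε => ?_⟩
  set θ : ℝ := min (1 / 8400) (ε / (12000 * c)) with hθ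
  have hθ0 : 0 < θ := lt_min (by norm_num) (by positivity)
  refine ⟨θ, hθ0, ?_⟩
  intro P ψ g a b q ra rb xa xb d hPo hPb hp hq ha hb hd hd0 hra hrb hFa hFb o1 o2 o3 o4 ηa ηb
    ha0 ha1 hb0 hb1
  have hU := isU_of_pair' hp hq xa
  rw [ha] at hU
  have hinj : InjOn (fun z => ψ (z + xa)) {z | 0 ≤ z.im} := by
    intro z hz w hw e
    have hz' : 0 ≤ z.im := hz
    have hw' : 0 ≤ w.im := hw
    have := hp.inj (show z + (xa : ℂ) ∈ {z : ℂ | 0 ≤ z.im} by
      show 0 ≤ (z + (xa : ℂ)).im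
      simpa using hz') (show w + (xa : ℂ) ∈ {z : ℂ | 0 ≤ z.im} by
      show 0 ≤ (w + (xa : ℂ)).im
      simpa using hw') e
    exact add_right_cancel this
  have hg : ∀ ζ : ℂ, 0 < ζ.im → (fun z => g z - xa) ((fun z => ψ (z + xa)) ζ) = ζ := by
    intro ζ hζ
    have := hp.inv (ζ + xa) (by simpa using hζ)
    simp only [this, add_sub_cancel_right]
  have hx : (fun z => ψ (z + xa)) ((xb - xa : ℝ) : ℂ) = b := by
    simp only [Complex.ofReal_sub, sub_add_cancel]
    exact hb
  have hd' : HasDerivWithinAt (fun z => ψ (z + xa)) d {z | 0 ≤ z.im} ((xb - xa : ℝ) : ℂ) := by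
    have h1 : HasDerivWithinAt (fun z : ℂ => z + xa) 1 {z | 0 ≤ z.im} ((xb - xa : ℝ) : ℂ) :=
      ((hasDerivAt_id _).add_const _).hasDerivWithinAt
    have e : ((xb - xa : ℝ) : ℂ) + xa = xb := by push_cast; ring
    rw [← e] at hd
    have h2 := HasDerivWithinAt.comp ((xb - xa : ℝ) : ℂ) hd h1 (fun z hz => by
      have : 0 ≤ z.im := hz
      show 0 ≤ (z + (xa : ℂ)).im
      simpa using this)
    rw [mul_one] at h2
    exact h2
  have hθ1 : θ ≤ 1 / 8400 := min_le_left _ _
  have hθ2 : θ ≤ ε / (12000 * c) := min_le_right _ _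
  have hηa : ηa ≤ ra / 8400 := by
    calc ηa ≤ θ * ra := ha1
      _ ≤ 1 / 8400 * ra := by gcongr
      _ = ra / 8400 := by ring
  have hηb : ηb ≤ rb / 8400 := by
    calc ηb ≤ θ * rb := hb1
      _ ≤ 1 / 8400 * rb := by gcongr
      _ = rb / 8400 := by ring
  have hqa : ηa / ra ≤ θ := by rwa [div_le_iff₀ hra]
  have hqb : ηb / rb ≤ θ := by rwa [div_le_iff₀ hrb]
  have hFa' := flat_of_flatAt hra hFa
  have hFb' := flat_of_flatAt hrb hFb
  obtain ⟨hx0, hmain⟩ := b7u (g := fun z => g z - xa) hU hinj hg hFa' hFb' (notMem_of_off o4) (notMem_of_off o2)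
    (notMem_of_off o3) (notMem_of_off o1) hηa hb0 hηb (by linarith)
    (hS.bp hFa' ha0 (by linarith)) hS hx hd' hd0
  rw [← bmp_eq, ← bmp_eq, en_sub_real, en_sub_real] at hmain
  rw [en_eq, sc_eq, mul_sub]
  have hxx : 0 < |xb - xa| := abs_pos.2 hx0
  have hdn : 0 < ‖d‖ := norm_pos_iff.2 hd0
  have hY : 0 < (ηb / (‖d‖ * |xb - xa|)) ^ (1 / 3 : ℝ) := by positivity
  rw [mul_comm |xb - xa|]
  set Y := (ηb / (‖d‖ * |xb - xa|)) ^ (1 / 3 : ℝ) with hYd
  set E := Real.exp (sc * en g (bmp χ a ηa) (bmp χ b ηb) -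
    sc * en g (bmp χ b ηb) (bmp χ b ηb)) with hE
  have hcY : 0 < c * Y := by positivity
  have e1 : E - c * Y = c * Y * (E / (c * Y) - 1) := by field_simp
  rw [e1, abs_mul, abs_of_pos hcY]
  calc c * Y * |E / (c * Y) - 1| ≤ c * Y * (6000 * (ηa / ra + ηb / rb)) := by gcongr
    _ ≤ c * Y * (6000 * (θ + θ)) := by gcongr
    _ = 12000 * c * θ * Y := by ring
    _ ≤ 12000 * c * (ε / (12000 * c)) * Y := by gcongr
    _ = ε * Y := by field_simp

end Vale.Agent.P167.H411.B7
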