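import Vale.Agent.P167.H411.B7.Scale

/-!
# P167, block B7u: the calculus of the explicit exponential, uniform in the domain
-/

open Set Metric Filter Topology Bornology MeasureTheory
open scoped ComplexConjugate ContDiff

namespace Vale.Agent.P167.H411.B7

open Vale.Agent.P153.R2.R1 Vale.Agent.P167.H756
open Vale.Agent.P167.BVP (Flat nker npot kreg lpot Test)

/-- The energy `(h, N f)`. -/
noncomputable def en (g : ℂ → ℂ) (h f : ℂ → ℝ) : ℝ := ∫ z, h z * npot g f z

/-! ### Bilinearity -/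

section

variable {D : Set ℂ} {g : ℂ → ℂ} {f f' h h' : ℂ → ℝ}

theorem test_lin (hf : Test D f) (hf' : Test D f') (a b : ℝ) :
    Test D fun z => a * f z + b * f' z := by
  have hz : ∀ z, z ∉ tsupport f ∪ tsupport f' → a * f z + b * f' z = 0 := by
    intro z hz
    rw [mem_union, not_or] at hz
    rw [image_eq_zero_of_notMem_tsupport hz.1, image_eq_zero_of_notMem_tsupport hz.2]
    ring
  have hK : IsCompact (tsupport f ∪ tsupport f') :=
    IsCompact.union hf.2.1 hf'.2.1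
  have hsub : tsupport (fun z => a * f z + b * f' z) ⊆ tsupport f ∪ tsupport f' := by
    refine closure_minimal ?_ hK.isClosed
    intro z hz'
    by_contra hcon
    exact hz' (hz z hcon)
  refine ⟨(hf.1.const_smul a).add (hf'.1.const_smul b), hK.of_isClosed_subset
    (isClosed_tsupport _) hsub, hsub.trans (union_subset hf.2.2 hf'.2.2)⟩

theorem npot_lin (hg : BVP.Conf D g) (hf : Test D f) (hf' : Test D f') (a b : ℝ) {z : ℂ}
    (hz : z ∈ D) : npot g (fun z => a * f z + b * f' z) z = a * npot g f z + b * npot g f' z := by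
  have i1 := (nker_integrable hg hf hz).const_mul a
  have i2 := (nker_integrable hg hf' hz).const_mul b
  have e : ∀ w, (a * f w + b * f' w) * nker (g z) (g w) =
      a * (f w * nker (g z) (g w)) + b * (f' w * nker (g z) (g w)) := fun w => by ring
  unfold npot
  simp only [e]
  rw [integral_add i1 i2, integral_const_mul, integral_const_mul]
  ring

theorem en_congr_right {u : ℂ → ℝ} (hh : tsupport h ⊆ D) (hu : ∀ z ∈ D, npot g f z = u z) :
    en g h f = ∫ z, h z * u z := by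
  refine integral_congr_ae (Eventually.of_forall fun z => ?_)
  simp only
  by_cases hz : z ∈ tsupport h
  · rw [hu z (hh hz)]
  · rw [image_eq_zero_of_notMem_tsupport hz, zero_mul, zero_mul]

theorem en_int (hg : BVP.Conf D g) (hh : Test D h) (hf : Test D f) :
    Integrable fun z => h z * npot g f z :=
  integrable_mul_contOn hg.isOpen hh (npot_contOn hg hf)

theorem en_lin_right (hg : BVP.Conf D g) (hh : Test D h) (hf : Test D f) (hf' : Test D f')
    (a b : ℝ) : en g h (fun z => a * f z + b * f' z) = a * en g h f + b * en g h f' := by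
  rw [en_congr_right hh.2.2 fun z hz => npot_lin hg hf hf' a b hz]
  have e : ∀ z, h z * (a * npot g f z + b * npot g f' z) =
      a * (h z * npot g f z) + b * (h z * npot g f' z) := fun z => by ring
  simp only [e]
  rw [integral_add ((en_int hg hh hf).const_mul a) ((en_int hg hh hf').const_mul b),
    integral_const_mul, integral_const_mul]
  rfl

theorem en_lin_left (hg : BVP.Conf D g) (hh : Test D h) (hh' : Test D h') (hf : Test D f)
    (a b : ℝ) : en g (fun z => a * h z + b * h' z) f = a * en g h f + b * en g h' f := by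
  have e : ∀ z, (a * h z + b * h' z) * npot g f z =
      a * (h z * npot g f z) + b * (h' z * npot g f z) := fun z => by ring
  unfold en
  simp only [e]
  rw [integral_add ((en_int hg hh hf).const_mul a) ((en_int hg hh' hf).const_mul b),
    integral_const_mul, integral_const_mul]

/-- The energy depends only on the values of `g` in the domain. -/
theorem en_congr {g' : ℂ → ℂ} (hgg : ∀ z ∈ D, g z = g' z) (hh : tsupport h ⊆ D)
    (hf : tsupport f ⊆ D) : en g h f = en g' h f := by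
  have h1 : ∀ z ∈ D, npot g f z = npot g' f z := by
    intro z hz
    unfold npot
    congr 1
    refine integral_congr_ae (Eventually.of_forall fun w => ?_)
    simp only
    by_cases hw : w ∈ tsupport f
    · rw [hgg z hz, hgg w (hf hw)]
    · rw [image_eq_zero_of_notMem_tsupport hw, zero_mul, zero_mul]
  rw [en_congr_right hh h1]
  rfl

end

/-! ### The derivative at a flat boundary point -/

section

variable {ψ G : ℂ → ℂ} {P : Set ℂ} {a p q ν : ℂ} {r : ℝ}

theorem XT.hasDeriv (hX : XT ψ G q ν r) (h : IsU ψ P a p) (hinj : InjOn ψ {z | 0 ≤ z.im})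
    (hF : Flat P q ν r) (hp : p ∉ ball q r) :
    HasDerivWithinAt ψ (deriv G q)⁻¹ {z | 0 ≤ z.im} (ginv ψ q) := by
  have hr := hF.pos
  have hq : q ∈ ball q r := mem_ball_self hr
  have hne : ∀ z ∈ ball q r, z ≠ p := fun z hz e => hp (e ▸ hz)
  have hd : deriv G q ≠ 0 := univ_deriv_ne hr hX.diff hX.inj
  have han : AnalyticAt ℂ G q := hX.diff.analyticAt (isOpen_ball.mem_nhds hq)
  have hst : HasStrictDerivAt G (deriv G q) q := han.hasStrictDerivAt
  have hmap := hst.map_nhds_eq hd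
  rw [hX.center hF] at hmap
  -- the local inverse
  set G' : ℂ → ℂ := Function.invFunOn G (ball q r) with hG'
  have hinv : ∀ z ∈ ball q r, G' (G z) = z := by
    intro z hz
    have hex : ∃ x ∈ ball q r, G x = G z := ⟨z, hz, rfl⟩
    exact hX.inj (Function.invFunOn_mem hex) hz (Function.invFunOn_eq hex)
  have himg : ∀ᶠ ζ in 𝓝 (ginv ψ q), G' ζ ∈ ball q r ∧ G (G' ζ) = ζ := by
    rw [← hmap, eventually_map]
    filter_upwards [isOpen_ball.mem_nhds hq] with z hz
    rw [hinv z hz]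
    exact ⟨hz, rfl⟩
  have hGq : G' (ginv ψ q) = q := by rw [← hX.center hF]; exact hinv q hq
  have hcont : ContinuousAt G' (ginv ψ q) := by
    rw [ContinuousAt, hGq, ← hmap, tendsto_map'_iff]
    refine tendsto_id.congr' ?_
    filter_upwards [isOpen_ball.mem_nhds hq] with z hz using (hinv z hz).symm
  have hG'd : HasDerivAt G' (deriv G q)⁻¹ (ginv ψ q) := by
    refine HasDerivAt.of_local_left_inverse hcont ?_ hd (himg.mono fun ζ hζ => hζ.2)
    rw [hGq]
    exact (hX.diff.differentiableAt (isOpen_ball.mem_nhds hq)).hasDerivAt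
  have hkey : ∀ z ∈ ball q r, 0 ≤ (G z).im → ψ (G z) = z := by
    intro z hz him
    rcases lt_or_ge (((z - q) * conj ν).re) 0 with h1 | h1
    · exfalso
      have h2 : 0 < ((rfn q ν z - q) * conj ν).re := by rw [rfn_height hF.norm]; linarith
      have hm := rfn_mem hF.norm hz
      have h3 := hX.eq _ hm h2.le
      have h4 := (ginv_pos h hinj ((hF.mem _ hm).2 h2)).1
      rw [← h3, hX.symm z hz, Complex.conj_im] at h4
      linarith
    · rw [hX.eq z hz h1]
      exact (ginv_spec h hinj (flat_closure hF hz h1) (hne z hz)).2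
  have heq : ψ =ᶠ[𝓝[{z | 0 ≤ z.im}] (ginv ψ q)] G' := by
    filter_upwards [mem_nhdsWithin_of_mem_nhds himg, self_mem_nhdsWithin] with ζ hζ h0
    have := hkey (G' ζ) hζ.1 (by rw [hζ.2]; exact h0)
    rw [hζ.2] at this
    exact this
  refine hG'd.hasDerivWithinAt.congr_of_eventuallyEq heq ?_
  rw [hGq]
  exact (ginv_spec h hinj (flat_closure hF hq (by simp)) (hne q hq)).2

theorem uniqueDiff_half (x : ℝ) : UniqueDiffWithinAt ℂ {z : ℂ | 0 ≤ z.im} (x : ℂ) := by
  rw [uniqueDiffWithinAt_iff_accPt, accPt_iff_nhds]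
  intro U hU
  obtain ⟨η, hη, hsub⟩ := Metric.mem_nhds_iff.1 hU
  have hd : dist ((x : ℂ) + ((η / 2 : ℝ) : ℂ)) x = η / 2 := by
    rw [dist_eq_norm, add_sub_cancel_left, Complex.norm_real, Real.norm_of_nonneg (by positivity)]
  refine ⟨(x : ℂ) + ((η / 2 : ℝ) : ℂ), ⟨hsub ?_, ?_⟩, ?_⟩
  · rw [mem_ball, hd]; linarith
  · show 0 ≤ ((x : ℂ) + ((η / 2 : ℝ) : ℂ)).im
    rw [Complex.add_im, Complex.ofReal_im, Complex.ofReal_im, add_zero]
  · intro h
    have h5 : (((η / 2 : ℝ)) : ℂ) = 0 := by linear_combination h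
    have h6 : (η / 2 : ℝ) = 0 := by exact_mod_cast h5
    linarith

/-- The derivative of the extension in terms of the one-sided derivative of the uniformizer. -/
theorem XT.deriv_eq (hX : XT ψ G q ν r) (h : IsU ψ P a p) (hinj : InjOn ψ {z | 0 ≤ z.im})
    (hF : Flat P q ν r) (hp : p ∉ ball q r) {x : ℝ} {d : ℂ} (hx : ψ x = q)
    (hd : HasDerivWithinAt ψ d {z | 0 ≤ z.im} x) : ‖deriv G q‖ = ‖d‖⁻¹ := by
  have h1 := hX.hasDeriv h hinj hF hp
  have h2 : ginv ψ q = x := by rw [← hx]; exact ginv_apply hinj (by simp)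
  rw [h2] at h1
  have h3 := (uniqueDiff_half x).eq_deriv _ hd h1
  rw [h3, norm_inv, inv_inv]

end

/-! ### The energies -/

section

variable {ψ : ℂ → ℂ} {P : Set ℂ} {a p : ℂ}

theorem Bp.abs {q : ℂ} {η : ℝ} {φ : ℂ → ℝ} (h : Bp P q η φ) : ∫ z, |φ z| = 1 := by
  have e : ∀ z, |φ z| = φ z := fun z => abs_of_nonneg (h.nonneg z)
  simp only [e]
  exact h.mass

theorem Bp.sub {q : ℂ} {η : ℝ} {φ : ℂ → ℝ} (h : Bp P q η φ) :
    tsupport φ ⊆ P ∩ closedBall q η := subset_inter h.test.2.2 h.supp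

theorem pi_c1 : 1 / (2 * Real.pi) * 80 ≤ 13 := by
  have := Real.pi_gt_d2
  rw [one_div, inv_mul_le_iff₀ (by positivity)]
  linarith

theorem pi_c2 : 1 / (2 * Real.pi) * 16800 ≤ 2700 := by
  have := Real.pi_gt_d2
  rw [one_div, inv_mul_le_iff₀ (by positivity)]
  linarith

/-- Mutual energy of two bumps near different flat points. -/
theorem en_ab (h : IsU ψ P a p) (hinj : InjOn ψ {z | 0 ≤ z.im}) {q q' ν ν' : ℂ} {r r' η η' : ℝ}
    {φ φ' : ℂ → ℝ} (hF : Flat P q ν r) (hF' : Flat P q' ν' r') (hp : p ∉ ball q r)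
    (hp' : p ∉ ball q' r') (hqq : q' ∉ ball q r) (hqq' : q ∉ ball q' r') (hη : η ≤ r / 8400)
    (hη' : η' ≤ r' / 8400) (hφ : Bp P q η φ) (hφ' : Bp P q' η' φ') :
    |en (ginv ψ) φ φ' + 1 / Real.pi * Real.log ‖ginv ψ q - ginv ψ q'‖| ≤
      13 * (η / r + η' / r') := by
  obtain ⟨G, hX⟩ := exists_ext h hinj hF hp
  obtain ⟨G', hX'⟩ := exists_ext h hinj hF' hp'
  have hg := ginv_conf h hinj
  have h1 := en_const hg hφ.test hφ'.test (L := 2 * Real.log ‖ginv ψ q - ginv ψ q'‖)
    (ε := 80 * (η / r + η' / r')) fun z hz w hw =>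
      (ker_far h hinj hX hF hX' hF' hp hp' hqq hqq' hη hη' (hφ.sub hz) (hφ'.sub hw)).2
  rw [hφ.mass, hφ'.mass, hφ.abs, hφ'.abs] at h1
  have hr := hF.pos
  have hr' := hF'.pos
  have hη0 : 0 ≤ η := by
    by_contra hlt
    push Not at hlt
    have : ∀ z, φ z = 0 := fun z => by
      refine image_eq_zero_of_notMem_tsupport fun hz => ?_
      have := dist_nonneg.trans (mem_closedBall.1 (hφ.supp hz))
      linarith
    have h2 := hφ.mass
    simp only [this, integral_zero] at h2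
    norm_num at h2
  have hη0' : 0 ≤ η' := by
    by_contra hlt
    push Not at hlt
    have : ∀ z, φ' z = 0 := fun z => by
      refine image_eq_zero_of_notMem_tsupport fun hz => ?_
      have := dist_nonneg.trans (mem_closedBall.1 (hφ'.supp hz))
      linarith
    have h2 := hφ'.mass
    simp only [this, integral_zero] at h2
    norm_num at h2
  have e : en (ginv ψ) φ φ' + 1 / Real.pi * Real.log ‖ginv ψ q - ginv ψ q'‖ =
      (∫ z, φ z * npot (ginv ψ) φ' z) +
        1 / (2 * Real.pi) * (2 * Real.log ‖ginv ψ q - ginv ψ q'‖ * 1 * 1) := by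
    unfold en
    have := Real.pi_ne_zero
    field_simp
  rw [e]
  refine h1.trans ?_
  have hs : 0 ≤ η / r + η' / r' := by positivity
  calc _ = 1 / (2 * Real.pi) * 80 * (η / r + η' / r') := by ring
    _ ≤ 13 * (η / r + η' / r') := mul_le_mul_of_nonneg_right pi_c1 hs

theorem Bp.eta_nonneg {q : ℂ} {η : ℝ} {φ : ℂ → ℝ} (hφ : Bp P q η φ) : 0 ≤ η := by
  by_contra hlt
  push Not at hlt
  have : ∀ z, φ z = 0 := fun z => by
    refine image_eq_zero_of_notMem_tsupport fun hz => ?_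
    have := dist_nonneg.trans (mem_closedBall.1 (hφ.supp hz))
    linarith
  have h2 := hφ.mass
  simp only [this, integral_zero] at h2
  norm_num at h2

/-- Self-energy of a bump near a flat point. -/
theorem en_bb (h : IsU ψ P a p) (hinj : InjOn ψ {z | 0 ≤ z.im}) {q ν : ℂ} {r η : ℝ}
    {φ φ' : ℂ → ℝ} (hF : Flat P q ν r) (hp : p ∉ ball q r) (hη : η ≤ r / 8400)
    (hφ : Bp P q η φ) (hφ' : Bp P q η φ') {x : ℝ} {d : ℂ} (hx : ψ x = q)
    (hd : HasDerivWithinAt ψ d {z | 0 ≤ z.im} x) :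
    |en (ginv ψ) φ φ' + 1 / (2 * Real.pi) * (-2 * Real.log ‖d‖ + JJ q ν φ φ')| ≤
      2700 * (η / r) := by
  obtain ⟨G, hX⟩ := exists_ext h hinj hF hp
  have hg := ginv_conf h hinj
  have hr := hF.pos
  have h1 := en_flat hg hφ.test hφ'.test (q := q) hF.norm (u := fun _ => 0)
    (L := 2 * Real.log ‖deriv G q‖) (ε := 16800 * (η / r)) continuousOn_const (by
      intro z hz w hw hzw
      have := ker_near hX hF hη (hφ.sub hz) (hφ'.sub hw) hzw
      simpa using this)
  rw [hφ.mass, hφ'.mass, hφ.abs, hφ'.abs, hX.deriv_eq h hinj hF hp hx hd, Real.log_inv] at h1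
  have e : en (ginv ψ) φ φ' + 1 / (2 * Real.pi) * (-2 * Real.log ‖d‖ + JJ q ν φ φ') =
      (∫ z, φ z * npot (ginv ψ) φ' z) + 1 / (2 * Real.pi) * ((∫ z, φ z * 0) * 1 +
        1 * (∫ z, φ' z * 0) + 2 * -Real.log ‖d‖ * 1 * 1 + JJ q ν φ φ') := by
    unfold en
    simp only [mul_zero, integral_zero]
    ring
  rw [e]
  refine h1.trans ?_
  have hs : 0 ≤ η / r := div_nonneg hφ.eta_nonneg hr.le
  calc _ = 1 / (2 * Real.pi) * 16800 * (η / r) := by ring
    _ ≤ 2700 * (η / r) := mul_le_mul_of_nonneg_right pi_c2 hs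

/-- The logarithm of the modulus of the coordinate is continuous. -/
theorem log_ginv_contOn (h : IsU ψ P a p) (hinj : InjOn ψ {z | 0 ≤ z.im}) (c : ℝ) :
    ContinuousOn (fun z => c * Real.log ‖ginv ψ z‖) P := by
  have hg := ginv_conf h hinj
  refine ContinuousOn.mul continuousOn_const ?_
  exact hg.diff.continuousOn.norm.log fun z hz =>
    norm_ne_zero_iff.2 (ne_zero_of_im (ginv_pos h hinj hz).1)

/-- The average of `log |g|` for a bump near `p`. -/
noncomputable def lg (ψ : ℂ → ℂ) (φ : ℂ → ℝ) : ℝ := ∫ z, φ z * (2 * Real.log ‖ginv ψ z‖)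

/-- Mutual energy with a bump near `p`. -/
theorem en_hp (h : IsU ψ P a p) (hinj : InjOn ψ {z | 0 ≤ z.im})
    (hne : ∀ z : ℂ, 0 ≤ z.im → ψ z ≠ p) {ν : ℂ} {r η : ℝ} {f φ : ℂ → ℝ} (hF : Flat P p ν r)
    (ha : a ∉ ball p r) (hη : η ≤ r / 8400) (hφ : Bp P p η φ) (hf : Test P f)
    (hfs : tsupport f ⊆ P \ ball p r) :
    |en (ginv ψ) f φ + 1 / (2 * Real.pi) * ((∫ z, f z) * lg ψ φ)| ≤
      13 * (η / r) * ∫ z, |f z| := by
  obtain ⟨H, hX⟩ := exists_ext (swp_isU h) (swp_inj hinj hne) hF ha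
  have hg := ginv_conf h hinj
  have hr := hF.pos
  have h1 := en_right hg hf hφ.test (u := fun z => 2 * Real.log ‖ginv ψ z‖) (ε := 80 * (η / r))
    (log_ginv_contOn h hinj 2) fun z hz w hw =>
      ker_inf h hinj hne hX hF ha hη (hfs hz) (hφ.sub hw)
  rw [hφ.abs] at h1
  refine h1.trans ?_
  have hs : 0 ≤ η / r := div_nonneg hφ.eta_nonneg hr.le
  have hf0 : 0 ≤ ∫ z, |f z| := integral_nonneg fun z => abs_nonneg _
  calc _ = 1 / (2 * Real.pi) * 80 * (η / r) * ∫ z, |f z| := by ring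
    _ ≤ 13 * (η / r) * ∫ z, |f z| := by
      have := pi_c1
      gcongr

/-- Mutual energy with a bump near `p`, other order. -/
theorem en_ph (h : IsU ψ P a p) (hinj : InjOn ψ {z | 0 ≤ z.im})
    (hne : ∀ z : ℂ, 0 ≤ z.im → ψ z ≠ p) {ν : ℂ} {r η : ℝ} {f φ : ℂ → ℝ} (hF : Flat P p ν r)
    (ha : a ∉ ball p r) (hη : η ≤ r / 8400) (hφ : Bp P p η φ) (hf : Test P f)
    (hfs : tsupport f ⊆ P \ ball p r) :
    |en (ginv ψ) φ f + 1 / (2 * Real.pi) * ((∫ z, f z) * lg ψ φ)| ≤
      13 * (η / r) * ∫ z, |f z| := by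
  obtain ⟨H, hX⟩ := exists_ext (swp_isU h) (swp_inj hinj hne) hF ha
  have hg := ginv_conf h hinj
  have hr := hF.pos
  have hsym : ∀ ζ ξ : ℂ, nker ζ ξ = nker ξ ζ := by
    intro ζ ξ
    unfold nker
    rw [norm_sub_rev, ← BVP.norm_sub_conj, norm_sub_rev (conj ζ)]
  have h1 := en_left hg hφ.test hf (u := fun z => 2 * Real.log ‖ginv ψ z‖) (ε := 80 * (η / r))
    (log_ginv_contOn h hinj 2) fun z hz w hw => by
      rw [hsym]
      exact ker_inf h hinj hne hX hF ha hη (hfs hw) (hφ.sub hz)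
  rw [hφ.abs] at h1
  have e : (∫ z, f z) * lg ψ φ = (∫ z, φ z * (2 * Real.log ‖ginv ψ z‖)) * ∫ z, f z := by
    unfold lg; ring
  rw [e]
  refine h1.trans ?_
  have hs : 0 ≤ η / r := div_nonneg hφ.eta_nonneg hr.le
  have hf0 : 0 ≤ ∫ z, |f z| := integral_nonneg fun z => abs_nonneg _
  calc _ = 1 / (2 * Real.pi) * 80 * (η / r) * ∫ z, |f z| := by ring
    _ ≤ 13 * (η / r) * ∫ z, |f z| := by
      have := pi_c1
      gcongr

/-- Self-energy of a bump near `p`. -/
theorem en_pp (h : IsU ψ P a p) (hinj : InjOn ψ {z | 0 ≤ z.im})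
    (hne : ∀ z : ℂ, 0 ≤ z.im → ψ z ≠ p) {ν : ℂ} {r : ℝ} (hF : Flat P p ν r)
    (ha : a ∉ ball p r) : ∃ L : ℝ, ∀ (η : ℝ) (φ : ℂ → ℝ), η ≤ r / 8400 → Bp P p η φ →
      |en (ginv ψ) φ φ + 1 / (2 * Real.pi) * (2 * lg ψ φ + L + JJ p ν φ φ)| ≤
        2700 * (η / r) := by
  obtain ⟨H, hX⟩ := exists_ext (swp_isU h) (swp_inj hinj hne) hF ha
  have hg := ginv_conf h hinj
  have hr := hF.pos
  refine ⟨2 * Real.log ‖deriv H p‖, fun η φ hη hφ => ?_⟩
  have h1 := en_flat hg hφ.test hφ.test (q := p) hF.norm (u := fun z => 2 * Real.log ‖ginv ψ z‖)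
    (L := 2 * Real.log ‖deriv H p‖) (ε := 16800 * (η / r)) (log_ginv_contOn h hinj 2) (by
      intro z hz w hw hzw
      exact ker_near_inf h hinj hne hX hF hη (hφ.sub hz) (hφ.sub hw) hzw)
  rw [hφ.mass, hφ.abs] at h1
  have e : en (ginv ψ) φ φ + 1 / (2 * Real.pi) * (2 * lg ψ φ + 2 * Real.log ‖deriv H p‖ +
      JJ p ν φ φ) = (∫ z, φ z * npot (ginv ψ) φ z) + 1 / (2 * Real.pi) *
        ((∫ z, φ z * (2 * Real.log ‖ginv ψ z‖)) * 1 + 1 * (∫ z, φ z * (2 * Real.log ‖ginv ψ z‖)) +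
          2 * Real.log ‖deriv H p‖ * 1 * 1 + JJ p ν φ φ) := by
    unfold en lg
    ring
  rw [e]
  refine h1.trans ?_
  have hs : 0 ≤ η / r := div_nonneg hφ.eta_nonneg hr.le
  calc _ = 1 / (2 * Real.pi) * 16800 * (η / r) := by ring
    _ ≤ 2700 * (η / r) := mul_le_mul_of_nonneg_right pi_c2 hs

end

end Vale.Agent.P167.H411.B7
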