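import Vale.Agent.P167.H411.B7.Main

/-!
# P167, block B7u: the statements

`P` is a domain with the uniformizer `ψ` (`ψ 0 = a`, `ψ ∞ = p`), `g` its inverse; `P` is flat (with
inner normals `νa`, `νb`, `νp`) in the discs of radius `ra`, `rb`, `rp` around the boundary points `a`,
`b = ψ x`, `p`; `d` is the one-sided derivative of `ψ` at `x`. `en g h f = (h, N f)` is the energy of the
Neumann kernel which vanishes at `p`. Bumps have mass `1`; the charges are `π / 3` times the bumps;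
`s = 3 / π`.

* `b7u` : `exp (s (f_a, N f_b) - s (f_b, N f_b)) = c_χ (η_b / (|d| |x|))^(1/3) (1 + O(η_a/r_a + η_b/r_b))`
  with a UNIVERSAL constant in the `O`;
* `b7u_lim` : `s (f_b - f_a, N (f_p - f_b)) → s (f_a, N f_b) - s (f_b, N f_b)` as the bump at `p` shrinks;
* `b7u_low` : `exp (- s (F, N F)) ≥ c ρ^(1/3)` for `F = f_p - f_a`, the bump at `p` of scale `ρ`.
-/

open Set Metric Filter Topology Bornology MeasureTheory
open scoped ComplexConjugate ContDiff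

namespace Vale.Agent.P167.H411.B7

open Vale.Agent.P153.R2.R1 Vale.Agent.P167.H756
open Vale.Agent.P167.BVP (Flat nker npot kreg lpot Test)

/-- The constant `s = 3 / π`. -/
noncomputable def sc : ℝ := 3 / Real.pi

/-- The charge `π / 3` times the bump. -/
noncomputable def ch (φ : ℂ → ℝ) (z : ℂ) : ℝ := Real.pi / 3 * φ z

/-- The constant of a shape. -/
noncomputable def cs (ν : ℂ) (χ : ℂ → ℝ) : ℝ := Real.exp (JJ 0 ν χ χ / 6)

theorem cs_pos (ν : ℂ) (χ : ℂ → ℝ) : 0 < cs ν χ := Real.exp_pos _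

section

variable {ψ g : ℂ → ℂ} {P : Set ℂ} {a p : ℂ}

theorem inv_eq (h : IsU ψ P a p) (hinj : InjOn ψ {z | 0 ≤ z.im})
    (hg : ∀ ζ : ℂ, 0 < ζ.im → g (ψ ζ) = ζ) : ∀ z ∈ P, g z = ginv ψ z := by
  intro z hz
  obtain ⟨h1, h2⟩ := ginv_pos h hinj hz
  have := hg _ h1
  rwa [h2] at this

theorem conf_of_inv (h : IsU ψ P a p) (hinj : InjOn ψ {z | 0 ≤ z.im})
    (hg : ∀ ζ : ℂ, 0 < ζ.im → g (ψ ζ) = ζ) : BVP.Conf P g where
  isOpen := isOpen_of_isU h
  diff := (ginv_conf h hinj).diff.congr (inv_eq h hinj hg)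
  inj := by
    intro x hx y hy e
    rw [inv_eq h hinj hg x hx, inv_eq h hinj hg y hy] at e
    exact (ginv_conf h hinj).inj hx hy e
  im_pos := fun z hz => by rw [inv_eq h hinj hg z hz]; exact (ginv_conf h hinj).im_pos z hz

theorem en_smul {D : Set ℂ} (hg : BVP.Conf D g) {h f : ℂ → ℝ} (hh : Test D h) (hf : Test D f)
    (c c' : ℝ) : en g (fun z => c * h z) (fun z => c' * f z) = c * c' * en g h f := by
  have h1 := en_lin_left hg hh hh (test_lin hf hf c' 0) c 0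
  have h2 := en_lin_right hg hh hf hf c' 0
  simp only [zero_mul, add_zero] at h1 h2
  rw [h1, h2]; ring

theorem test_ch {φ : ℂ → ℝ} (h : Test P φ) : Test P (ch φ) := by
  have h1 := test_lin h h (Real.pi / 3) 0
  have e : ch φ = fun z => Real.pi / 3 * φ z + 0 * φ z := by
    funext z; unfold ch; ring
  rw [e]
  exact h1

/-- **The exponent.** -/
theorem b7u_exp (h : IsU ψ P a p) (hinj : InjOn ψ {z | 0 ≤ z.im})
    (hg : ∀ ζ : ℂ, 0 < ζ.im → g (ψ ζ) = ζ) {b νa νb : ℂ} {ra rb ηa ηb : ℝ} {φa φb : ℂ → ℝ}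
    (hFa : Flat P a νa ra) (hFb : Flat P b νb rb) (hpa : p ∉ ball a ra) (hpb : p ∉ ball b rb)
    (hba : b ∉ ball a ra) (hab : a ∉ ball b rb) (hηa : ηa ≤ ra / 8400) (hηb : ηb ≤ rb / 8400)
    (hφa : Bp P a ηa φa) (hφb : Bp P b ηb φb) {x : ℝ} {d : ℂ} (hx : ψ x = b)
    (hd : HasDerivWithinAt ψ d {z | 0 ≤ z.im} x) :
    |(sc * en g (ch φa) (ch φb) - sc * en g (ch φb) (ch φb)) -
      (1 / 3 * (-Real.log ‖d‖ - Real.log |x|) + JJ b νb φb φb / 6)| ≤
      3000 * (ηa / ra + ηb / rb) := by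
  have hG := ginv_conf h hinj
  have e1 : ∀ φ φ' : ℂ → ℝ, Test P φ → Test P φ' →
      sc * en g (ch φ) (ch φ') = Real.pi / 3 * en (ginv ψ) φ φ' := by
    intro φ φ' h1 h2
    have h3 : Test P (ch φ) := test_ch h1
    have h4 : Test P (ch φ') := test_ch h2
    rw [en_congr (inv_eq h hinj hg) h3.2.2 h4.2.2]
    have h5 : en (ginv ψ) (ch φ) (ch φ') = Real.pi / 3 * (Real.pi / 3) * en (ginv ψ) φ φ' :=
      en_smul hG h1 h2 _ _
    rw [h5, sc]
    have := Real.pi_ne_zero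
    field_simp
  rw [e1 _ _ hφa.test hφb.test, e1 _ _ hφb.test hφb.test]
  have h1 := en_ab h hinj hFa hFb hpa hpb hba hab hηa hηb hφa hφb
  have h2 := en_bb h hinj hFb hpb hηb hφb hφb hx hd
  have hA : ginv ψ a = 0 := by rw [← h.zero]; exact ginv_apply hinj (by simp)
  have hB : ginv ψ b = x := by rw [← hx]; exact ginv_apply hinj (by simp)
  rw [hA, hB, zero_sub, norm_neg, Complex.norm_real, Real.norm_eq_abs] at h1
  set A := en (ginv ψ) φa φb
  set B := en (ginv ψ) φb φb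
  have hpi := Real.pi_pos
  have hpi2 := Real.pi_lt_d2
  have e2 : (Real.pi / 3 * A - Real.pi / 3 * B) -
      (1 / 3 * (-Real.log ‖d‖ - Real.log |x|) + JJ b νb φb φb / 6) =
      Real.pi / 3 * ((A + 1 / Real.pi * Real.log |x|) -
        (B + 1 / (2 * Real.pi) * (-2 * Real.log ‖d‖ + JJ b νb φb φb))) := by
    field_simp
    ring
  rw [e2, abs_mul, abs_of_pos (by positivity : 0 < Real.pi / 3)]
  have ha0 : 0 ≤ ηa / ra := div_nonneg hφa.eta_nonneg hFa.pos.le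
  have hb0 : 0 ≤ ηb / rb := div_nonneg hφb.eta_nonneg hFb.pos.le
  have h3 : |(A + 1 / Real.pi * Real.log |x|) -
      (B + 1 / (2 * Real.pi) * (-2 * Real.log ‖d‖ + JJ b νb φb φb))| ≤
      2713 * (ηa / ra + ηb / rb) := by
    refine (abs_sub _ _).trans ?_
    nlinarith
  calc Real.pi / 3 * _ ≤ Real.pi / 3 * (2713 * (ηa / ra + ηb / rb)) := by gcongr
    _ ≤ 3.15 / 3 * (2713 * (ηa / ra + ηb / rb)) := by gcongr
    _ ≤ 3000 * (ηa / ra + ηb / rb) := by nlinarith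

theorem exp_close {θ t : ℝ} (ht : t ≤ 1) (h : |θ| ≤ t) : |Real.exp θ - 1| ≤ 2 * t := by
  have h1 : |θ| ≤ 1 := h.trans ht
  have h2 := Real.abs_exp_sub_one_le h1
  linarith

/-- **The calculus of the explicit exponential, uniform in the domain.** -/
theorem b7u (h : IsU ψ P a p) (hinj : InjOn ψ {z | 0 ≤ z.im})
    (hg : ∀ ζ : ℂ, 0 < ζ.im → g (ψ ζ) = ζ) {b νa νb : ℂ} {ra rb ηa ηb : ℝ} {φa χ : ℂ → ℝ}
    (hFa : Flat P a νa ra) (hFb : Flat P b νb rb) (hpa : p ∉ ball a ra) (hpb : p ∉ ball b rb)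
    (hba : b ∉ ball a ra) (hab : a ∉ ball b rb) (hηa : ηa ≤ ra / 8400) (hηb0 : 0 < ηb)
    (hηb : ηb ≤ rb / 8400) (hsm : ηa / ra + ηb / rb ≤ 1 / 3000)
    (hφa : Bp P a ηa φa) (hχ : Shp νb χ) {x : ℝ} {d : ℂ} (hx : ψ x = b)
    (hd : HasDerivWithinAt ψ d {z | 0 ≤ z.im} x) (hd0 : d ≠ 0) :
    x ≠ 0 ∧ |Real.exp (sc * en g (ch φa) (ch (scb χ b ηb)) -
        sc * en g (ch (scb χ b ηb)) (ch (scb χ b ηb))) /
      (cs νb χ * (ηb / (‖d‖ * |x|)) ^ (1 / 3 : ℝ)) - 1| ≤ 6000 * (ηa / ra + ηb / rb) := by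
  have hrb := hFb.pos
  have hφb : Bp P b ηb (scb χ b ηb) := hχ.bp hFb hηb0 (by linarith)
  have hx0 : x ≠ 0 := by
    rintro rfl
    rw [Complex.ofReal_zero, h.zero] at hx
    exact hba (hx ▸ mem_ball_self hFa.pos)
  refine ⟨hx0, ?_⟩
  have h1 := b7u_exp h hinj hg hFa hFb hpa hpb hba hab hηa hηb hφa hφb hx hd
  rw [JJ_scb hχ.smooth hχ.compact hχ.smooth hχ.compact b νb hηb0, hχ.mass] at h1
  have hdn : 0 < ‖d‖ := norm_pos_iff.2 hd0
  have hxn : 0 < |x| := abs_pos.2 hx0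
  have hY : 0 < ηb / (‖d‖ * |x|) := by positivity
  set K := sc * en g (ch φa) (ch (scb χ b ηb)) -
    sc * en g (ch (scb χ b ηb)) (ch (scb χ b ηb)) with hK
  have e1 : Real.exp K / (cs νb χ * (ηb / (‖d‖ * |x|)) ^ (1 / 3 : ℝ)) =
      Real.exp (K - (1 / 3 * (-Real.log ‖d‖ - Real.log |x|) +
        (2 * Real.log ηb * 1 * 1 + JJ 0 νb χ χ) / 6)) := by
    rw [cs, Real.rpow_def_of_pos hY, ← Real.exp_add, ← Real.exp_sub,
      Real.log_div hηb0.ne' (by positivity), Real.log_mul hdn.ne' hxn.ne']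
    congr 1
    ring
  rw [e1]
  have h2 := exp_close (t := 3000 * (ηa / ra + ηb / rb)) (by linarith) h1
  linarith

/-- The derivative at a flat boundary point exists and does not vanish. -/
theorem exists_deriv (h : IsU ψ P a p) (hinj : InjOn ψ {z | 0 ≤ z.im}) {b ν : ℂ} {r : ℝ}
    (hF : Flat P b ν r) (hp : p ∉ ball b r) : ∃ (x : ℝ) (d : ℂ), ψ x = b ∧ d ≠ 0 ∧
      HasDerivWithinAt ψ d {z | 0 ≤ z.im} x := by
  obtain ⟨G, hX⟩ := exists_ext h hinj hF hp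
  have hb : b ∈ ball b r := mem_ball_self hF.pos
  have hbp : b ≠ p := fun e => hp (e ▸ hb)
  have hbc : b ∈ closure P := flat_closure hF hb (by simp)
  have hbP : b ∉ P := by rw [hF.mem b hb]; simp
  have h1 := ginv_real h hinj hbc hbP hbp
  have h2 := (ginv_spec h hinj hbc hbp).2
  have e : (((ginv ψ b).re : ℝ) : ℂ) = ginv ψ b := by
    apply Complex.ext <;> simp [h1]
  refine ⟨(ginv ψ b).re, (deriv G b)⁻¹, by rw [e]; exact h2,
    inv_ne_zero (univ_deriv_ne hF.pos hX.diff hX.inj), ?_⟩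
  rw [e]
  exact hX.hasDeriv h hinj hF hp

/-! ### The bump at `p` -/

/-- `s (f_b - f_a, N (f_p - f_b))` for a small bump `f_p`. -/
theorem b7u_lim_le (h : IsU ψ P a p) (hinj : InjOn ψ {z | 0 ≤ z.im})
    (hne : ∀ z : ℂ, 0 ≤ z.im → ψ z ≠ p) (hg : ∀ ζ : ℂ, 0 < ζ.im → g (ψ ζ) = ζ) {ν : ℂ}
    {r η : ℝ} {φa φb φ : ℂ → ℝ} (hF : Flat P p ν r) (ha : a ∉ ball p r) (hη : η ≤ r / 8400)
    (hφ : Bp P p η φ) (hφa : Test P φa) (hφb : Test P φb) (hma : ∫ z, φa z = 1)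
    (hmb : ∫ z, φb z = 1) (hsa : tsupport φa ⊆ P \ ball p r) (hsb : tsupport φb ⊆ P \ ball p r) :
    |sc * en g (fun z => ch φb z - ch φa z) (fun z => ch φ z - ch φb z) -
      (sc * en g (ch φa) (ch φb) - sc * en g (ch φb) (ch φb))| ≤
      14 * (η / r) * ((∫ z, |φa z|) + ∫ z, |φb z|) := by
  have hG := conf_of_inv h hinj hg
  have hgg := inv_eq h hinj hg
  have e0 : ∀ φ φ' : ℂ → ℝ, Test P φ → Test P φ' →
      en g (ch φ) (ch φ') = Real.pi / 3 * (Real.pi / 3) * en g φ φ' := fun φ φ' h1 h2 =>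
    en_smul hG h1 h2 _ _
  have c1 := test_ch hφa
  have c2 := test_ch hφb
  have c3 := test_ch hφ.test
  have e1 : (fun z => ch φb z - ch φa z) = fun z => 1 * ch φb z + (-1) * ch φa z := by
    funext z; ring
  have e2 : (fun z => ch φ z - ch φb z) = fun z => 1 * ch φ z + (-1) * ch φb z := by
    funext z; ring
  rw [e1, e2, en_lin_left hG c2 c1 (test_lin c3 c2 1 (-1)) 1 (-1),
    en_lin_right hG c2 c3 c2 1 (-1), en_lin_right hG c1 c3 c2 1 (-1),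
    e0 _ _ hφb hφ.test, e0 _ _ hφb hφb, e0 _ _ hφa hφ.test, e0 _ _ hφa hφb]
  have h1 := en_hp h hinj hne hF ha hη hφ hφa hsa
  have h2 := en_hp h hinj hne hF ha hη hφ hφb hsb
  rw [hma, one_mul, ← en_congr hgg hφa.2.2 hφ.test.2.2] at h1
  rw [hmb, one_mul, ← en_congr hgg hφb.2.2 hφ.test.2.2] at h2
  have hpi := Real.pi_pos
  have hpi2 := Real.pi_lt_d2
  have e3 : sc * (1 * (1 * (Real.pi / 3 * (Real.pi / 3) * en g φb φ) +
      -1 * (Real.pi / 3 * (Real.pi / 3) * en g φb φb)) +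
      -1 * (1 * (Real.pi / 3 * (Real.pi / 3) * en g φa φ) +
        -1 * (Real.pi / 3 * (Real.pi / 3) * en g φa φb))) -
      (sc * (Real.pi / 3 * (Real.pi / 3) * en g φa φb) -
        sc * (Real.pi / 3 * (Real.pi / 3) * en g φb φb)) =
      Real.pi / 3 * ((en g φb φ + 1 / (2 * Real.pi) * lg ψ φ) -
        (en g φa φ + 1 / (2 * Real.pi) * lg ψ φ)) := by
    rw [sc]
    field_simp
    ring
  rw [e3, abs_mul, abs_of_pos (by positivity : 0 < Real.pi / 3)]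
  have hs : 0 ≤ η / r := div_nonneg hφ.eta_nonneg hF.pos.le
  have ha0 : 0 ≤ ∫ z, |φa z| := integral_nonneg fun z => abs_nonneg _
  have hb0 : 0 ≤ ∫ z, |φb z| := integral_nonneg fun z => abs_nonneg _
  have h3 : |(en g φb φ + 1 / (2 * Real.pi) * lg ψ φ) - (en g φa φ + 1 / (2 * Real.pi) * lg ψ φ)|
      ≤ 13 * (η / r) * ((∫ z, |φa z|) + ∫ z, |φb z|) := by
    refine (abs_sub _ _).trans ?_
    calc _ ≤ 13 * (η / r) * (∫ z, |φb z|) + 13 * (η / r) * ∫ z, |φa z| := add_le_add h2 h1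
      _ = _ := by ring
  have hpos : 0 ≤ (η / r) * ((∫ z, |φa z|) + ∫ z, |φb z|) := by positivity
  calc Real.pi / 3 * _ ≤ Real.pi / 3 * (13 * (η / r) * ((∫ z, |φa z|) + ∫ z, |φb z|)) := by gcongr
    _ = Real.pi / 3 * 13 * ((η / r) * ((∫ z, |φa z|) + ∫ z, |φb z|)) := by ring
    _ ≤ 14 * ((η / r) * ((∫ z, |φa z|) + ∫ z, |φb z|)) := by
      refine mul_le_mul_of_nonneg_right ?_ hpos
      linarith
    _ = _ := by ring

/-- The limit form. -/
theorem b7u_lim (h : IsU ψ P a p) (hinj : InjOn ψ {z | 0 ≤ z.im})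
    (hne : ∀ z : ℂ, 0 ≤ z.im → ψ z ≠ p) (hg : ∀ ζ : ℂ, 0 < ζ.im → g (ψ ζ) = ζ) {ν : ℂ}
    {r : ℝ} {φa φb χ : ℂ → ℝ} (hF : Flat P p ν r) (ha : a ∉ ball p r) (hχ : Shp ν χ)
    (hφa : Test P φa) (hφb : Test P φb) (hma : ∫ z, φa z = 1)
    (hmb : ∫ z, φb z = 1) (hsa : tsupport φa ⊆ P \ ball p r) (hsb : tsupport φb ⊆ P \ ball p r) :
    Tendsto (fun ρ : ℝ => Real.exp (sc * en g (fun z => ch φb z - ch φa z)
        (fun z => ch (scb χ p ρ) z - ch φb z))) (𝓝[>] 0)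
      (𝓝 (Real.exp (sc * en g (ch φa) (ch φb) - sc * en g (ch φb) (ch φb)))) := by
  refine (Real.continuous_exp.tendsto _).comp ?_
  rw [tendsto_iff_dist_tendsto_zero]
  have hr := hF.pos
  set C := (∫ z, |φa z|) + ∫ z, |φb z| with hC
  have h0 : Tendsto (fun ρ : ℝ => 14 * (ρ / r) * C) (𝓝[>] 0) (𝓝 0) := by
    have : Continuous fun ρ : ℝ => 14 * (ρ / r) * C := by fun_prop
    have h2 := this.tendsto 0
    simp only [zero_div, mul_zero, zero_mul] at h2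
    exact h2.mono_left nhdsWithin_le_nhds
  refine squeeze_zero' (Eventually.of_forall fun _ => dist_nonneg) ?_ h0
  have h1 : ∀ᶠ ρ : ℝ in 𝓝[>] 0, ρ < r / 8400 :=
    (gt_mem_nhds (by positivity : (0 : ℝ) < r / 8400)).filter_mono nhdsWithin_le_nhds
  filter_upwards [h1, self_mem_nhdsWithin] with ρ h2 h3
  have h3' : (0 : ℝ) < ρ := h3
  rw [Real.dist_eq]
  exact b7u_lim_le h hinj hne hg hF ha h2.le (hχ.bp hF h3' (by linarith)) hφa hφb hma hmb hsa hsb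

/-- **The lower bound for the neutral pair `(p, a)`.** -/
theorem b7u_low (h : IsU ψ P a p) (hinj : InjOn ψ {z | 0 ≤ z.im})
    (hne : ∀ z : ℂ, 0 ≤ z.im → ψ z ≠ p) (hg : ∀ ζ : ℂ, 0 < ζ.im → g (ψ ζ) = ζ) {ν : ℂ}
    {r : ℝ} {f χ : ℂ → ℝ} (hF : Flat P p ν r) (ha : a ∉ ball p r) (hχ : Shp ν χ)
    (hf : Test P f) (hm : ∫ z, f z = 1) (hs : tsupport f ⊆ P \ ball p r) :
    ∃ c > 0, ∀ ρ : ℝ, 0 < ρ → ρ ≤ r / 8400 → c * ρ ^ (1 / 3 : ℝ) ≤
      Real.exp (-(sc * en g (fun z => ch (scb χ p ρ) z - ch f z)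
        (fun z => ch (scb χ p ρ) z - ch f z))) := by
  have hG := conf_of_inv h hinj hg
  have hgg := inv_eq h hinj hg
  have hr := hF.pos
  have e0 : ∀ φ φ' : ℂ → ℝ, Test P φ → Test P φ' →
      en g (ch φ) (ch φ') = Real.pi / 3 * (Real.pi / 3) * en g φ φ' := fun φ φ' h1 h2 =>
    en_smul hG h1 h2 _ _
  obtain ⟨L, hL⟩ := en_pp h hinj hne hF ha
  set M := ∫ z, |f z| with hM
  set c₀ : ℝ := 1 / 6 * (L + JJ 0 ν χ χ) - Real.pi / 3 * en g f f -
    2 * (2700 + 26 * M) with hc₀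
  refine ⟨Real.exp c₀, Real.exp_pos _, fun ρ hρ hρr => ?_⟩
  have hφ : Bp P p ρ (scb χ p ρ) := hχ.bp hF hρ (by linarith)
  have h1 := hL ρ _ hρr hφ
  have h2 := en_hp h hinj hne hF ha hρr hφ hf hs
  have h3 := en_ph h hinj hne hF ha hρr hφ hf hs
  rw [hm, one_mul, ← en_congr hgg hf.2.2 hφ.test.2.2] at h2
  rw [hm, one_mul, ← en_congr hgg hφ.test.2.2 hf.2.2] at h3
  rw [← en_congr hgg hφ.test.2.2 hφ.test.2.2,
    JJ_scb hχ.smooth hχ.compact hχ.smooth hχ.compact p ν hρ, hχ.mass] at h1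
  have c1 := test_ch hf
  have c3 := test_ch hφ.test
  have e1 : (fun z => ch (scb χ p ρ) z - ch f z) =
      fun z => 1 * ch (scb χ p ρ) z + (-1) * ch f z := by
    funext z; ring
  rw [e1, en_lin_left hG c3 c1 (test_lin c3 c1 1 (-1)) 1 (-1),
    en_lin_right hG c3 c3 c1 1 (-1), en_lin_right hG c1 c3 c1 1 (-1),
    e0 _ _ hφ.test hφ.test, e0 _ _ hφ.test hf, e0 _ _ hf hφ.test, e0 _ _ hf hf]
  rw [Real.rpow_def_of_pos hρ, ← Real.exp_add]
  refine Real.exp_le_exp.2 ?_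
  set φ := scb χ p ρ
  have hpi := Real.pi_pos
  have hpi2 := Real.pi_lt_d2
  have hM0 : 0 ≤ M := integral_nonneg fun z => abs_nonneg _
  have hq : ρ / r ≤ 1 / 8400 := by rw [div_le_iff₀ hr]; linarith
  have hq0 : 0 ≤ ρ / r := by positivity
  set E1 := en g φ φ + 1 / (2 * Real.pi) * (2 * lg ψ φ + L +
    (2 * Real.log ρ * 1 * 1 + JJ 0 ν χ χ)) with hE1
  set E2 := en g f φ + 1 / (2 * Real.pi) * lg ψ φ with hE2
  set E3 := en g φ f + 1 / (2 * Real.pi) * lg ψ φ with hE3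
  have e4 : -(sc * (1 * (1 * (Real.pi / 3 * (Real.pi / 3) * en g φ φ) +
      -1 * (Real.pi / 3 * (Real.pi / 3) * en g φ f)) +
      -1 * (1 * (Real.pi / 3 * (Real.pi / 3) * en g f φ) +
        -1 * (Real.pi / 3 * (Real.pi / 3) * en g f f)))) =
      Real.log ρ * (1 / 3) + (1 / 6 * (L + JJ 0 ν χ χ) - Real.pi / 3 * en g f f) -
        Real.pi / 3 * (E1 - E2 - E3) := by
    rw [sc, hE1, hE2, hE3]
    field_simp
    ring
  rw [e4]
  have h4 : |E1 - E2 - E3| ≤ 2700 + 26 * M := by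
    have a1 : |E1| ≤ 2700 := h1.trans (by linarith)
    have a2 : |E2| ≤ 13 * M := h2.trans (by nlinarith)
    have a3 : |E3| ≤ 13 * M := h3.trans (by nlinarith)
    have a4 := abs_sub (E1 - E2) E3
    have a5 := abs_sub E1 E2
    linarith
  have h5 : Real.pi / 3 * (E1 - E2 - E3) ≤ 2 * (2700 + 26 * M) := by
    calc Real.pi / 3 * (E1 - E2 - E3) ≤ Real.pi / 3 * (2700 + 26 * M) := by
          have := (abs_le.1 h4).2
          gcongr
      _ ≤ 2 * (2700 + 26 * M) := by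
          refine mul_le_mul_of_nonneg_right ?_ (by positivity)
          linarith
  rw [hc₀]
  linarith

end

end Vale.Agent.P167.H411.B7
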