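import Vale.Agent.P167.CA.Defs
import Vale.Agent.P167.H411.B7.Out

/-!
# P167, block B7u: dictionary with `CA/Defs`
-/

open Set Metric Filter Topology Bornology MeasureTheory
open scoped ComplexConjugate ContDiff

namespace Vale.Agent.P167.H411.B7

open Vale.Agent.P153.R2.R1

theorem en_eq : CA.en = en := rfl

theorem sc_eq : CA.sc = sc := rfl

theorem pair_of_isU {ψ g : ℂ → ℂ} {P : Set ℂ} {a p : ℂ} (h : IsU ψ P a p)
    (hinj : InjOn ψ {z | 0 ≤ z.im}) (hg : ∀ ζ : ℂ, 0 < ζ.im → g (ψ ζ) = ζ) : CA.Pair P ψ g where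
  diff := h.diff
  img := h.img
  cont := h.cont
  inj := hinj
  infty := ⟨p, h.infty⟩
  inv := hg

theorem isU_of_pair {ψ g : ℂ → ℂ} {P : Set ℂ} (h : CA.Pair P ψ g) :
    ∃ p, IsU ψ P (ψ 0) p := by
  obtain ⟨p, hp⟩ := h.infty
  exact ⟨p, h.diff, h.inj.mono fun z hz => le_of_lt (show 0 < z.im from hz), h.img, h.cont, rfl, hp⟩

end Vale.Agent.P167.H411.B7
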