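import Vale.Agent.P167.H411.B7.IB7
import Vale.Agent.P167.BVP.Poly
import Vale.Agent.P167.E6.Poly6

/-!
# P167, LOC: the calculus with a small bump at the base point

For `S : CA.Dat` with `S.r = 0` (the base point is on a horizontal side with the domain above it),
`CA.Pair S.P ψ g` with `ψ ∞ = S.bp`, a shape `χ` (`CL.Bmp0`, mass `π / 3`), `φ_ρ = CL.bmp χ S.bp ρ`.

* `bmp_test` : `φ_ρ` is a test function of `S.P`, `≥ 0`, of mass `π / 3`, for small `ρ`;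
* `calc_low` : `(φ_ρ - f, N (φ_ρ - f)) ≤ C + (π / 9) log (1 / ρ)`;
* `calc_exp` : `c ρ^(1/3) ≤ exp (- s (φ_ρ - f, N (φ_ρ - f)))`;
* `calc_lim` : `(f_b - f_a, N (φ_ρ - f_b)) → (f_a, N f_b) - (f_b, N f_b)`.
-/

open Set Metric Filter Topology Bornology MeasureTheory
open scoped ComplexConjugate ContDiff

namespace Vale.Agent.P167.H411.B7

open Vale.Agent.P153.R2.R1
open Vale.Agent.P167.BVP (Flat nker npot Test)
open Vale.Agent.P167.CL (Bmp0 bmp FlatAt Off)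

variable {S : CA.Dat} {ψ g : ℂ → ℂ}

theorem dat_good (S : CA.Dat) : Good S.P := E6.good_D6 one_pos S.poly S.enc

theorem dat_flat (S : CA.Dat) (hr : S.r = 0) :
    Flat S.P S.bp Complex.I (min S.tp (1 - S.tp)) := by
  have h1 : E6.face (S.p 0) S.r ∈ S.Q ∧ E6.face (S.p 0) (S.r - 1) ∉ S.Q :=
    (S.enc (S.p 0) S.r).1 ⟨0, rfl, by rw [zero_add]; exact S.step⟩
  have h2 := BVP.flat_side h1.1 h1.2 S.tp0 S.tp1
  have e : E6.pt (E6.dir (S.r + 1)) = Complex.I := by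
    rw [hr]
    apply Complex.ext <;> simp [E6.pt, E6.dir]
  rw [e] at h2
  exact h2

theorem Flat.mono' {P : Set ℂ} {q ν : ℂ} {r r' : ℝ} (h : Flat P q ν r) (h0 : 0 < r') (h1 : r' ≤ r) :
    Flat P q ν r' := ⟨h.norm, h0, fun z hz => h.mem z (ball_subset_ball h1 hz)⟩

/-- The base point is not a value of `ψ` on the closed half-plane. -/
theorem dat_ne (hp : CA.Pair S.P ψ g)
    (hq : Tendsto ψ (cobounded ℂ ⊓ 𝓟 {z | 0 ≤ z.im}) (𝓝 S.bp)) :
    ∀ z : ℂ, 0 ≤ z.im → ψ z ≠ S.bp := by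
  have h := isU_of_pair' hp hq 0
  simp only [Complex.ofReal_zero, add_zero] at h
  exact (h.injOn (dat_good S).nocut).2

/-- A radius which is good for finitely many charges. -/
theorem exists_radius (hr : S.r = 0) (hp : CA.Pair S.P ψ g)
    (hq : Tendsto ψ (cobounded ℂ ⊓ 𝓟 {z | 0 ≤ z.im}) (𝓝 S.bp)) {f f' : ℂ → ℝ}
    (hf : Test S.P f) (hf' : Test S.P f') :
    ∃ r > 0, Flat S.P S.bp Complex.I r ∧ ψ 0 ∉ ball S.bp r ∧
      tsupport f ⊆ S.P \ ball S.bp r ∧ tsupport f' ⊆ S.P \ ball S.bp r := by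
  have hF := dat_flat S hr
  have hbp : S.bp ∉ S.P := by
    rw [hF.mem _ (mem_ball_self hF.pos)]; simp
  have h0 : ψ 0 ≠ S.bp := dat_ne hp hq 0 (by simp)
  have hK : IsClosed (tsupport f ∪ tsupport f' ∪ {ψ 0}) :=
    ((isClosed_tsupport f).union (isClosed_tsupport f')).union isClosed_singleton
  have hn : S.bp ∉ tsupport f ∪ tsupport f' ∪ {ψ 0} := by
    rintro ((h | h) | h)
    · exact hbp (hf.2.2 h)
    · exact hbp (hf'.2.2 h)
    · exact h0 (mem_singleton_iff.1 h).symm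
  obtain ⟨r, hr0, hrs⟩ := Metric.isOpen_iff.1 hK.isOpen_compl _ hn
  refine ⟨min r (min S.tp (1 - S.tp)), lt_min hr0 hF.pos, Flat.mono' hF (lt_min hr0 hF.pos)
    (min_le_right _ _), ?_, ?_, ?_⟩
  · intro h
    exact hrs (ball_subset_ball (min_le_left _ _) h) (Or.inr rfl)
  · intro z hz
    exact ⟨hf.2.2 hz, fun h => hrs (ball_subset_ball (min_le_left _ _) h) (Or.inl (Or.inl hz))⟩
  · intro z hz
    exact ⟨hf'.2.2 hz, fun h => hrs (ball_subset_ball (min_le_left _ _) h) (Or.inl (Or.inr hz))⟩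

/-- The small bump at the base point is a test function. -/
theorem bmp_test (hr : S.r = 0) {χ : ℂ → ℝ} (hχ : Bmp0 χ) {ρ : ℝ} (h0 : 0 < ρ)
    (h1 : ρ < min S.tp (1 - S.tp)) : Test S.P (bmp χ S.bp ρ) ∧ (∀ z, 0 ≤ bmp χ S.bp ρ z) ∧
      ∫ z, bmp χ S.bp ρ z = Real.pi / 3 := by
  have hB := (shp_nrm hχ).bp (dat_flat S hr) h0 h1
  rw [bmp_eq]
  refine ⟨test_ch hB.test, fun z => ?_, ?_⟩
  · unfold ch
    have := hB.nonneg z
    positivity
  · unfold ch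
    rw [integral_const_mul, hB.mass, mul_one]

theorem ch_nrm (f : ℂ → ℝ) : ch (nrm f) = f := by
  funext z
  unfold ch nrm
  have := Real.pi_ne_zero
  field_simp

theorem nrm_test {P : Set ℂ} {f : ℂ → ℝ} (hf : Test P f) : Test P (nrm f) := by
  have h2 := test_lin hf hf (3 / Real.pi) 0
  have e : nrm f = fun z => 3 / Real.pi * f z + 0 * f z := by
    funext z; unfold nrm; ring
  rw [e]
  exact h2

theorem nrm_supp (f : ℂ → ℝ) : tsupport (nrm f) ⊆ tsupport f := by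
  refine closure_minimal ?_ (isClosed_tsupport f)
  intro z hz
  refine subset_tsupport _ fun h0 => hz ?_
  simp only [nrm, h0, mul_zero]

theorem nrm_mass {f : ℂ → ℝ} (hf : ∫ z, f z = Real.pi / 3) : ∫ z, nrm f z = 1 := by
  unfold nrm
  rw [integral_const_mul, hf]
  have := Real.pi_ne_zero
  field_simp

/-- **The exponential lower bound.** -/
theorem calc_exp (hr : S.r = 0) (hp : CA.Pair S.P ψ g)
    (hq : Tendsto ψ (cobounded ℂ ⊓ 𝓟 {z | 0 ≤ z.im}) (𝓝 S.bp)) {χ f : ℂ → ℝ} (hχ : Bmp0 χ)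
    (hf : Test S.P f) (hm : ∫ z, f z = Real.pi / 3) :
    ∃ c > 0, ∃ ρ₀ > 0, ∀ ρ : ℝ, 0 < ρ → ρ ≤ ρ₀ → c * ρ ^ (1 / 3 : ℝ) ≤
      Real.exp (-(CA.sc * CA.en g (fun z => bmp χ S.bp ρ z - f z)
        (fun z => bmp χ S.bp ρ z - f z))) := by
  obtain ⟨r, hr0, hF, ha, hs, -⟩ := exists_radius hr hp hq hf hf
  have hU := isU_of_pair' hp hq 0
  simp only [Complex.ofReal_zero, add_zero] at hU
  obtain ⟨c, hc, h⟩ := b7u_low (f := nrm f) hU hp.inj (dat_ne hp hq) hp.inv hF ha (shp_nrm hχ)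
    (nrm_test hf) (nrm_mass hm) ((nrm_supp f).trans hs)
  refine ⟨c, hc, r / 8400, by positivity, fun ρ h0 h1 => ?_⟩
  have h2 := h ρ h0 h1
  rw [← bmp_eq, ch_nrm] at h2
  exact h2

/-- **The upper bound of the energy.** -/
theorem calc_low (hr : S.r = 0) (hp : CA.Pair S.P ψ g)
    (hq : Tendsto ψ (cobounded ℂ ⊓ 𝓟 {z | 0 ≤ z.im}) (𝓝 S.bp)) {χ f : ℂ → ℝ} (hχ : Bmp0 χ)
    (hf : Test S.P f) (hm : ∫ z, f z = Real.pi / 3) :
    ∃ C : ℝ, ∃ ρ₀ > 0, ∀ ρ : ℝ, 0 < ρ → ρ ≤ ρ₀ →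
      CA.en g (fun z => bmp χ S.bp ρ z - f z) (fun z => bmp χ S.bp ρ z - f z) ≤
        C + Real.pi / 9 * Real.log (1 / ρ) := by
  obtain ⟨c, hc, ρ₀, hρ₀, h⟩ := calc_exp hr hp hq hχ hf hm
  refine ⟨-(Real.pi / 3) * Real.log c, ρ₀, hρ₀, fun ρ h0 h1 => ?_⟩
  have h2 := h ρ h0 h1
  set E := CA.en g (fun z => bmp χ S.bp ρ z - f z) (fun z => bmp χ S.bp ρ z - f z) with hE
  have h3 := Real.log_le_log (by positivity) h2
  rw [Real.log_exp, Real.log_mul hc.ne' (by positivity), Real.log_rpow h0, CA.sc] at h3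
  rw [one_div, Real.log_inv]
  have hpi := Real.pi_pos
  have h4 : Real.pi / 3 * (Real.log c + 1 / 3 * Real.log ρ) ≤ Real.pi / 3 * -(3 / Real.pi * E) := by
    gcongr
  have e1 : Real.pi / 3 * -(3 / Real.pi * E) = -E := by field_simp
  rw [e1] at h4
  linarith

/-- **The limit of the cross energy.** -/
theorem calc_lim (hr : S.r = 0) (hp : CA.Pair S.P ψ g)
    (hq : Tendsto ψ (cobounded ℂ ⊓ 𝓟 {z | 0 ≤ z.im}) (𝓝 S.bp)) {χ fa fb : ℂ → ℝ} (hχ : Bmp0 χ)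
    (hfa : Test S.P fa) (hfb : Test S.P fb) (hma : ∫ z, fa z = Real.pi / 3)
    (hmb : ∫ z, fb z = Real.pi / 3) :
    Tendsto (fun ρ : ℝ => CA.en g (fun z => fb z - fa z) (fun z => bmp χ S.bp ρ z - fb z))
      (𝓝[>] 0) (𝓝 (CA.en g fa fb - CA.en g fb fb)) := by
  obtain ⟨r, hr0, hF, ha, hsa, hsb⟩ := exists_radius hr hp hq hfa hfb
  have hU := isU_of_pair' hp hq 0
  simp only [Complex.ofReal_zero, add_zero] at hU
  have hpi := Real.pi_pos
  set M := (∫ z, |nrm fa z|) + ∫ z, |nrm fb z| with hM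
  rw [tendsto_iff_dist_tendsto_zero]
  have h0 : Tendsto (fun ρ : ℝ => Real.pi / 3 * (14 * (ρ / r) * M)) (𝓝[>] 0) (𝓝 0) := by
    have : Continuous fun ρ : ℝ => Real.pi / 3 * (14 * (ρ / r) * M) := by fun_prop
    have h2 := this.tendsto 0
    simp only [zero_div, mul_zero, zero_mul] at h2
    exact h2.mono_left nhdsWithin_le_nhds
  refine squeeze_zero' (Eventually.of_forall fun _ => dist_nonneg) ?_ h0
  have h1 : ∀ᶠ ρ : ℝ in 𝓝[>] 0, ρ < r / 8400 :=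
    (gt_mem_nhds (by positivity : (0 : ℝ) < r / 8400)).filter_mono nhdsWithin_le_nhds
  filter_upwards [h1, self_mem_nhdsWithin] with ρ h2 h3
  have h3' : (0 : ℝ) < ρ := h3
  have h4 := b7u_lim_le hU hp.inj (dat_ne hp hq) hp.inv hF ha h2.le
    ((shp_nrm hχ).bp hF h3' (by linarith)) (nrm_test hfa) (nrm_test hfb) (nrm_mass hma)
    (nrm_mass hmb) ((nrm_supp fa).trans hsa) ((nrm_supp fb).trans hsb)
  rw [← bmp_eq, ch_nrm, ch_nrm] at h4
  rw [Real.dist_eq]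
  have e : CA.en g (fun z => fb z - fa z) (fun z => bmp χ S.bp ρ z - fb z) -
      (CA.en g fa fb - CA.en g fb fb) = Real.pi / 3 *
        (sc * en g (fun z => fb z - fa z) (fun z => bmp χ S.bp ρ z - fb z) -
          (sc * en g fa fb - sc * en g fb fb)) := by
    rw [en_eq, sc]
    field_simp
  rw [e, abs_mul, abs_of_pos (by positivity : 0 < Real.pi / 3)]
  gcongr

end Vale.Agent.P167.H411.B7
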