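import Vale.Agent.P167.H411.B7.Koebe
import Vale.Agent.P167.H756.Tools
import Vale.Agent.P167.BVP.Neum
import Vale.Agent.P167.BVP.Flat

/-!
# P167, block B7u: univalent extension across a flat side

`exists_ext` : the inverse `g` of a uniformizer `ψ` of `P` (`ψ 0 = a`, `ψ ∞ = p`) extends to a
univalent function on the disc around a flat boundary point, with the reflection symmetry.
-/

open Set Metric Filter Topology Bornology
open scoped ComplexConjugate

namespace Vale.Agent.P167.H411.B7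

open Vale.Agent.P153.R2.R1 Vale.Agent.P167.H756
open Vale.Agent.P167.BVP (Flat)

variable {ψ g : ℂ → ℂ} {P : Set ℂ} {a p : ℂ}

/-- Reflection in the line through `q` with normal `ν`. -/
noncomputable def rfn (q ν z : ℂ) : ℂ := q - ν * conj ((z - q) * conj ν)

theorem rfn_I (q z : ℂ) : rfn q Complex.I z = q + conj (z - q) := by
  unfold rfn
  rw [map_mul, Complex.conj_conj]
  have := Complex.I_mul_I
  linear_combination (-conj (z - q)) * this

theorem bdd_of_ne (h : IsU ψ P a p) {z₀ : ℂ} (hz : z₀ ≠ p) :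
    ∃ M : ℝ, ∃ V ∈ 𝓝 z₀, ∀ w : ℂ, 0 ≤ w.im → ψ w ∈ V → ‖w‖ ≤ M := by
  obtain ⟨V, U, hV, hU, hd⟩ := t2_separation_nhds hz
  have h1 := h.infty hU
  rw [mem_map, mem_inf_principal] at h1
  have h2 : IsBounded ({x | x ∈ {z : ℂ | 0 ≤ z.im} → x ∈ ψ ⁻¹' U}ᶜ) := by
    rw [isBounded_def, compl_compl]; exact h1
  obtain ⟨M, hM⟩ := h2.subset_closedBall 0
  refine ⟨M, V, hV, fun w hw hwV => ?_⟩
  have h3 : w ∈ closedBall (0 : ℂ) M := by
    refine hM ?_
    rw [mem_compl_iff]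
    intro hcon
    exact Set.disjoint_left.1 hd hwV (hcon hw)
  rwa [mem_closedBall_zero_iff] at h3

/-- The inverse function on the closure of `P`. -/
noncomputable def ginv (ψ : ℂ → ℂ) : ℂ → ℂ := Function.invFunOn ψ {z | 0 ≤ z.im}

theorem ginv_apply (hinj : InjOn ψ {z | 0 ≤ z.im}) {w : ℂ} (hw : 0 ≤ w.im) :
    ginv ψ (ψ w) = w := by
  have h : ∃ x ∈ {z : ℂ | 0 ≤ z.im}, ψ x = ψ w := ⟨w, hw, rfl⟩
  exact hinj (Function.invFunOn_mem h) hw (Function.invFunOn_eq h)

theorem exists_pre (h : IsU ψ P a p) (hinj : InjOn ψ {z | 0 ≤ z.im}) {z : ℂ}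
    (hz : z ∈ closure P) (hzp : z ≠ p) : ∃ w : ℂ, 0 ≤ w.im ∧ ψ w = z := by
  obtain ⟨M, V, hV, hb⟩ := bdd_of_ne h hzp
  have : (𝓝[P] z).NeBot := mem_closure_iff_nhdsWithin_neBot.1 hz
  have hex : ∀ y ∈ P, ∃ w : ℂ, 0 < w.im ∧ ψ w = y := by
    intro y hy
    rw [← h.img] at hy
    exact hy
  choose! w hw1 hw2 using hex
  have h1 : ∀ᶠ y in 𝓝[P] z, 0 ≤ (w y).im ∧ ‖w y‖ ≤ M := by
    filter_upwards [self_mem_nhdsWithin, mem_nhdsWithin_of_mem_nhds hV] with y hy hyV
    exact ⟨(hw1 y hy).le, hb _ (hw1 y hy).le (by rw [hw2 y hy]; exact hyV)⟩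
  have h2 : Tendsto (fun y => ψ (w y)) (𝓝[P] z) (𝓝 z) := by
    have h3 : Tendsto (fun y : ℂ => y) (𝓝[P] z) (𝓝 z) := tendsto_id.mono_left nhdsWithin_le_nhds
    refine h3.congr' ?_
    filter_upwards [self_mem_nhdsWithin] with y hy using (hw2 y hy).symm
  obtain ⟨w0, h3, -, h4, -⟩ := inv_tendsto_bdd h.cont hinj h1 h2
  exact ⟨w0, h3, h4⟩

theorem ginv_spec (h : IsU ψ P a p) (hinj : InjOn ψ {z | 0 ≤ z.im}) {z : ℂ}
    (hz : z ∈ closure P) (hzp : z ≠ p) : 0 ≤ (ginv ψ z).im ∧ ψ (ginv ψ z) = z := by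
  obtain ⟨w, hw, rfl⟩ := exists_pre h hinj hz hzp
  rw [ginv_apply hinj hw]
  exact ⟨hw, rfl⟩

theorem ginv_cont (h : IsU ψ P a p) (hinj : InjOn ψ {z | 0 ≤ z.im}) :
    ContinuousOn (ginv ψ) (closure P \ {p}) := by
  intro z hz
  obtain ⟨hz1, hz2⟩ := hz
  rw [mem_singleton_iff] at hz2
  obtain ⟨M, V, hV, hb⟩ := bdd_of_ne h hz2
  have : (𝓝[closure P \ {p}] z).NeBot := by
    rw [← mem_closure_iff_nhdsWithin_neBot]
    exact subset_closure ⟨hz1, hz2⟩
  have h1 : ∀ᶠ y in 𝓝[closure P \ {p}] z, 0 ≤ (ginv ψ y).im ∧ ‖ginv ψ y‖ ≤ M := by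
    filter_upwards [self_mem_nhdsWithin, mem_nhdsWithin_of_mem_nhds hV] with y hy hyV
    obtain ⟨a1, a2⟩ := ginv_spec h hinj hy.1 hy.2
    exact ⟨a1, hb _ a1 (by rw [a2]; exact hyV)⟩
  have h2 : Tendsto (fun y => ψ (ginv ψ y)) (𝓝[closure P \ {p}] z) (𝓝 z) := by
    have h3 : Tendsto (fun y : ℂ => y) (𝓝[closure P \ {p}] z) (𝓝 z) :=
      tendsto_id.mono_left nhdsWithin_le_nhds
    refine h3.congr' ?_
    filter_upwards [self_mem_nhdsWithin] with y hy using (ginv_spec h hinj hy.1 hy.2).2.symm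
  obtain ⟨w0, h3, -, h4, h5⟩ := inv_tendsto_bdd h.cont hinj h1 h2
  have h6 : ginv ψ z = w0 := by rw [← h4]; exact ginv_apply hinj h3
  rw [ContinuousWithinAt, h6]
  exact h5

theorem isOpen_of_isU (h : IsU ψ P a p) : IsOpen P := h.toDisc.isOpen

/-- Interior points have preimages in the open half-plane. -/
theorem ginv_pos (h : IsU ψ P a p) (hinj : InjOn ψ {z | 0 ≤ z.im}) {z : ℂ} (hz : z ∈ P) :
    0 < (ginv ψ z).im ∧ ψ (ginv ψ z) = z := by
  rw [← h.img] at hz
  obtain ⟨w, hw, rfl⟩ := hz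
  have hw' : 0 < w.im := hw
  rw [ginv_apply hinj hw'.le]
  exact ⟨hw', rfl⟩

/-- Boundary points have real preimages. -/
theorem ginv_real (h : IsU ψ P a p) (hinj : InjOn ψ {z | 0 ≤ z.im}) {z : ℂ}
    (hz : z ∈ closure P) (hzP : z ∉ P) (hzp : z ≠ p) : (ginv ψ z).im = 0 := by
  obtain ⟨h1, h2⟩ := ginv_spec h hinj hz hzp
  by_contra hne
  have h3 : 0 < (ginv ψ z).im := lt_of_le_of_ne h1 (Ne.symm hne)
  apply hzP
  rw [← h2, ← h.img]
  exact mem_image_of_mem _ h3

/-- The inverse function is conformal. -/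
theorem ginv_conf (h : IsU ψ P a p) (hinj : InjOn ψ {z | 0 ≤ z.im}) :
    BVP.Conf P (ginv ψ) where
  isOpen := isOpen_of_isU h
  diff := by
    have hP := isOpen_of_isU h
    intro z hz
    obtain ⟨h1, h2⟩ := ginv_pos h hinj hz
    have hopen : IsOpen {z : ℂ | 0 < z.im} := isOpen_lt continuous_const Complex.continuous_im
    have h3 : HasDerivAt ψ (deriv ψ (ginv ψ z)) (ginv ψ z) :=
      (h.diff.differentiableAt (hopen.mem_nhds h1)).hasDerivAt
    have h4 : deriv ψ (ginv ψ z) ≠ 0 :=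
      Vale.Agent.P153.R2.L1.injOn_deriv_ne_zero hopen h.diff h.inj h1
    have hpP : ∀ y ∈ P, y ≠ p ∨ y = p := fun y _ => (ne_or_eq y p)
    -- continuity at `z`
    have hc : ContinuousAt (ginv ψ) z := by
      have hst : HasStrictDerivAt ψ (deriv ψ (ginv ψ z)) (ginv ψ z) :=
        (h.diff.analyticAt (hopen.mem_nhds h1)).hasStrictDerivAt
      have hmap := hst.map_nhds_eq h4
      rw [h2] at hmap
      rw [ContinuousAt, ← hmap, tendsto_map'_iff]
      refine (tendsto_id (α := ℂ)).congr' ?_ |>.mono_right le_rfl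
      filter_upwards [hopen.mem_nhds h1] with w hw
      exact (ginv_apply hinj (le_of_lt hw)).symm
    exact (h3.of_local_left_inverse hc h4 (by
      filter_upwards [hP.mem_nhds hz] with y hy using (ginv_pos h hinj hy).2)).differentiableAt.differentiableWithinAt
  inj := by
    intro x hx y hy hxy
    rw [← (ginv_pos h hinj hx).2, ← (ginv_pos h hinj hy).2, hxy]
  im_pos := fun z hz => (ginv_pos h hinj hz).1

/-! ### The extension -/

theorem norm_mul_conj {ν : ℂ} (h : ‖ν‖ = 1) : ν * conj ν = 1 := by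
  rw [Complex.mul_conj, Complex.normSq_eq_norm_sq, h]; simp

theorem flat_closure {q ν : ℂ} {r : ℝ} (hF : Flat P q ν r) {z : ℂ} (hz : z ∈ ball q r)
    (h0 : 0 ≤ ((z - q) * conj ν).re) : z ∈ closure P := by
  have hνν := norm_mul_conj hF.norm
  have hl : Tendsto (fun t : ℝ => z + t * ν) (𝓝[>] 0) (𝓝 z) := by
    have : Continuous fun t : ℝ => z + t * ν := by fun_prop
    have h2 := this.tendsto 0
    simp only [Complex.ofReal_zero, zero_mul, add_zero] at h2
    exact h2.mono_left nhdsWithin_le_nhds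
  refine mem_closure_of_tendsto hl ?_
  filter_upwards [hl.eventually (isOpen_ball.mem_nhds hz), self_mem_nhdsWithin] with t ht ht0
  have ht0' : (0 : ℝ) < t := ht0
  rw [hF.mem _ ht]
  have e : (z + t * ν - q) * conj ν = (z - q) * conj ν + t * (ν * conj ν) := by ring
  rw [e, hνν, mul_one, Complex.add_re, Complex.ofReal_re]
  linarith

/-- Data of a univalent extension of `ginv ψ` across the flat side at `q`. -/
structure XT (ψ G : ℂ → ℂ) (q ν : ℂ) (r : ℝ) : Prop where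
  diff : DifferentiableOn ℂ G (ball q r)
  inj : InjOn G (ball q r)
  eq : ∀ z ∈ ball q r, 0 ≤ ((z - q) * conj ν).re → G z = ginv ψ z
  symm : ∀ z ∈ ball q r, G (rfn q ν z) = conj (G z)

theorem rfn_mem {q ν : ℂ} {r : ℝ} (hν : ‖ν‖ = 1) {z : ℂ} (hz : z ∈ ball q r) :
    rfn q ν z ∈ ball q r := by
  rw [mem_ball, dist_eq_norm] at hz ⊢
  have e : rfn q ν z - q = -(ν * conj ((z - q) * conj ν)) := by unfold rfn; ring
  rwa [e, norm_neg, norm_mul, RCLike.norm_conj, norm_mul, RCLike.norm_conj, hν, one_mul, mul_one]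

theorem rfn_height {q ν : ℂ} (hν : ‖ν‖ = 1) (z : ℂ) :
    ((rfn q ν z - q) * conj ν).re = - ((z - q) * conj ν).re := by
  have hνν := norm_mul_conj hν
  have e : (rfn q ν z - q) * conj ν = -(ν * conj ν) * conj ((z - q) * conj ν) := by
    unfold rfn; ring
  rw [e, hνν, neg_one_mul, Complex.neg_re, Complex.conj_re]

theorem exists_ext (h : IsU ψ P a p) (hinj : InjOn ψ {z | 0 ≤ z.im}) {q ν : ℂ} {r : ℝ}
    (hF : Flat P q ν r) (hp : p ∉ ball q r) : ∃ G : ℂ → ℂ, XT ψ G q ν r := by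
  have hνν := norm_mul_conj hF.norm
  have hg := ginv_conf h hinj
  set c : ℂ → ℂ := fun ζ => q - Complex.I * ν * ζ with hc
  set d : ℂ → ℂ := fun z => Complex.I * ((z - q) * conj ν) with hd
  have hcd : ∀ z, c (d z) = z := by
    intro z
    simp only [hc, hd]
    have := Complex.I_mul_I
    linear_combination (-(z - q) * (ν * conj ν)) * this + (z - q) * hνν
  have hdc : ∀ ζ, d (c ζ) = ζ := by
    intro ζ
    simp only [hc, hd]
    have := Complex.I_mul_I
    linear_combination (-ζ * (ν * conj ν)) * this + ζ * hνν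
  have hcn : ∀ ζ, ζ ∈ ball (0 : ℂ) r ↔ c ζ ∈ ball q r := by
    intro ζ
    have e : q - Complex.I * ν * ζ - q = -(Complex.I * ν * ζ) := by ring
    rw [mem_ball_zero_iff, mem_ball, dist_eq_norm, hc]
    simp only [e, norm_neg, norm_mul, Complex.norm_I, one_mul, hF.norm]
  have hch : ∀ ζ, ((c ζ - q) * conj ν).re = ζ.im := by
    intro ζ
    have e : (c ζ - q) * conj ν = -(Complex.I * ζ) * (ν * conj ν) := by
      simp only [hc]; ring
    rw [e, hνν, mul_one]
    simp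
  have hdh : ∀ z, (d z).im = ((z - q) * conj ν).re := by
    intro z
    rw [← hch (d z), hcd]
  have hdn : ∀ z, z ∈ ball q r ↔ d z ∈ ball (0 : ℂ) r := by
    intro z
    rw [hcn, hcd]
  have hne : ∀ z ∈ ball q r, z ≠ p := fun z hz e => hp (e ▸ hz)
  -- Schwarz reflection
  obtain ⟨G₀, hG1, hG2, hG3⟩ := schwarz (T := fun ζ => ginv ψ (c ζ)) (x := 0) (r := r) (by
      refine (ginv_cont h hinj).comp (by fun_prop) ?_
      rintro ζ ⟨h1, h2⟩
      rw [Complex.ofReal_zero] at h1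
      have h1' := (hcn ζ).1 h1
      exact ⟨flat_closure hF h1' (by rw [hch]; exact h2), hne _ h1'⟩) (by
      refine hg.diff.comp (by fun_prop) ?_
      rintro ζ ⟨h1, h2⟩
      rw [Complex.ofReal_zero] at h1
      rw [hF.mem _ ((hcn ζ).1 h1), hch]
      exact h2) (by
      intro ζ h1 h2
      rw [Complex.ofReal_zero] at h1
      have h1' := (hcn ζ).1 h1
      refine ginv_real h hinj (flat_closure hF h1' (by rw [hch, h2])) ?_ (hne _ h1')
      rw [hF.mem _ h1', hch, h2]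
      exact lt_irrefl _)
  rw [Complex.ofReal_zero] at hG1 hG2 hG3
  refine ⟨fun z => G₀ (d z), ?_, ?_, ?_, ?_⟩
  · refine hG1.comp (by fun_prop) fun z hz => (hdn z).1 hz
  · -- injectivity
    have hup : ∀ ζ ∈ ball (0 : ℂ) r, 0 ≤ ζ.im → 0 ≤ (G₀ ζ).im ∧ ψ (G₀ ζ) = c ζ := by
      intro ζ h1 h2
      have h1' := (hcn ζ).1 h1
      rw [hG2 ζ h1 h2]
      exact ginv_spec h hinj (flat_closure hF h1' (by rw [hch]; exact h2)) (hne _ h1')
    have hpos : ∀ ζ ∈ ball (0 : ℂ) r, 0 < ζ.im → 0 < (G₀ ζ).im := by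
      intro ζ h1 h2
      have h1' := (hcn ζ).1 h1
      rw [hG2 ζ h1 h2.le]
      exact (ginv_pos h hinj (by rw [hF.mem _ h1', hch]; exact h2)).1
    have hconj : ∀ ζ ∈ ball (0 : ℂ) r, conj ζ ∈ ball (0 : ℂ) r := by
      intro ζ h1
      rw [mem_ball_zero_iff] at h1 ⊢
      rwa [RCLike.norm_conj]
    have hneg : ∀ ζ ∈ ball (0 : ℂ) r, ζ.im < 0 → (G₀ ζ).im < 0 := by
      intro ζ h1 h2
      have h3 := hpos (conj ζ) (hconj ζ h1) (by rw [Complex.conj_im]; linarith)
      rw [hG3 ζ h1, Complex.conj_im] at h3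
      linarith
    have hcinj : ∀ ζ ζ' : ℂ, c ζ = c ζ' → ζ = ζ' := by
      intro ζ ζ' e
      rw [← hdc ζ, ← hdc ζ', e]
    have key : ∀ ζ ∈ ball (0 : ℂ) r, ∀ ζ' ∈ ball (0 : ℂ) r, 0 ≤ ζ.im → G₀ ζ = G₀ ζ' → ζ = ζ' := by
      intro ζ h1 ζ' h1' h2 e
      have h3 : 0 ≤ ζ'.im := by
        by_contra hlt
        rw [not_le] at hlt
        have h4 := hneg ζ' h1' hlt
        rw [← e] at h4
        exact absurd (hup ζ h1 h2).1 (not_le.2 h4)
      apply hcinj
      rw [← (hup ζ h1 h2).2, ← (hup ζ' h1' h3).2, e]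
    intro z hz w hw e
    have hz' := (hdn z).1 hz
    have hw' := (hdn w).1 hw
    have e' : G₀ (d z) = G₀ (d w) := e
    have hdd : d z = d w := by
      rcases le_total 0 (d z).im with h1 | h1
      · exact key _ hz' _ hw' h1 e'
      · have h2 : G₀ (conj (d z)) = G₀ (conj (d w)) := by
          rw [hG3 _ hz', hG3 _ hw', e']
        have h3 := key _ (hconj _ hz') _ (hconj _ hw') (by rw [Complex.conj_im]; linarith) h2
        have h4 := congrArg conj h3
        rwa [Complex.conj_conj, Complex.conj_conj] at h4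
    rw [← hcd z, ← hcd w, hdd]
  · intro z hz h0
    have hz' := (hdn z).1 hz
    have h2 := hG2 (d z) hz' (by rw [hdh]; exact h0)
    simp only [hcd] at h2
    exact h2
  · intro z hz
    have e : d (rfn q ν z) = conj (d z) := by
      simp only [hd, rfn, map_mul, Complex.conj_I, Complex.conj_conj]
      linear_combination (-Complex.I * conj (z - q) * ν) * hνν
    simp only [e]
    exact hG3 (d z) ((hdn z).1 hz)

section

variable {G : ℂ → ℂ} {q ν : ℂ} {r : ℝ}

/-- Values taken elsewhere are omitted. -/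
theorem XT.omit (hX : XT ψ G q ν r) (h : IsU ψ P a p) (hinj : InjOn ψ {z | 0 ≤ z.im})
    (hF : Flat P q ν r) (hp : p ∉ ball q r) {v : ℂ} (hv : 0 ≤ v.im) (hvb : ψ v ∉ ball q r) :
    v ∉ G '' ball q r := by
  rintro ⟨z, hz, rfl⟩
  have hne : ∀ z ∈ ball q r, z ≠ p := fun z hz e => hp (e ▸ hz)
  rcases lt_or_ge (((z - q) * conj ν).re) 0 with h1 | h1
  · have h2 : 0 < ((rfn q ν z - q) * conj ν).re := by rw [rfn_height hF.norm]; linarith
    have hm := rfn_mem hF.norm hz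
    have h3 := hX.eq _ hm h2.le
    have h4 := (ginv_pos h hinj ((hF.mem _ hm).2 h2)).1
    rw [← h3, hX.symm z hz, Complex.conj_im] at h4
    linarith
  · apply hvb
    rw [hX.eq z hz h1, (ginv_spec h hinj (flat_closure hF hz h1) (hne z hz)).2]
    exact hz

theorem XT.im_center (hX : XT ψ G q ν r) (hF : Flat P q ν r) : (G q).im = 0 := by
  have hq : q ∈ ball q r := mem_ball_self hF.pos
  have h1 := hX.symm q hq
  have e : rfn q ν q = q := by unfold rfn; simp
  rw [e] at h1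
  exact Complex.conj_eq_iff_im.1 h1.symm

theorem XT.eq_mem (hX : XT ψ G q ν r) (hF : Flat P q ν r) {z : ℂ} (hz : z ∈ ball q r)
    (hzP : z ∈ P) : G z = ginv ψ z := hX.eq z hz ((hF.mem z hz).1 hzP).le

theorem XT.center (hX : XT ψ G q ν r) (hF : Flat P q ν r) : G q = ginv ψ q :=
  hX.eq q (mem_ball_self hF.pos) (by simp)

end

end Vale.Agent.P167.H411.B7
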