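import Vale.Agent.P167.H411.B7.Out
import Vale.Agent.P167.H756.Glue2

/-!
# P167, block B7u: the statement with `GAt`
-/

open Set Metric Filter Topology Bornology MeasureTheory
open scoped ComplexConjugate ContDiff

namespace Vale.Agent.P167.H411.B7

open Vale.Agent.P153.R2.R1 Vale.Agent.P167.H756
open Vale.Agent.P167.BVP (Flat nker npot kreg lpot Test)

variable {ψ g : ℂ → ℂ} {P : Set ℂ} {a p : ℂ}

/-- The number `G` does not depend on the uniformizer. -/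
theorem gat_eq (hP : NoCut P) (h : IsU ψ P a p) {b : ℂ} {x : ℝ} {d : ℂ} (hx : ψ x = b)
    (hd : HasDerivWithinAt ψ d {z | 0 ≤ z.im} x) {G : ℝ} (hG : GAt P a p b G) :
    G = 1 / (‖d‖ * |x|) := by
  obtain ⟨φ, y, e, h', hy, -, -, he, rfl⟩ := hG
  obtain ⟨s, hs, hsc⟩ := isU_scale hP h h'
  have hs0 : (s : ℂ) ≠ 0 := by exact_mod_cast hs.ne'
  -- `φ z = ψ (s z)`
  have h1 : ψ ((s : ℂ) * y) = b := by rw [← hsc y (by simp), hy]
  have h2 : (s : ℂ) * y = x := by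
    refine (h.injOn hP).1 ?_ ?_ (h1.trans hx.symm)
    · show 0 ≤ ((s : ℂ) * y).im
      simp
    · show 0 ≤ ((x : ℂ)).im
      simp
  have h3 : x = s * y := by
    have : ((s * y : ℝ) : ℂ) = (x : ℂ) := by push_cast; exact h2
    exact_mod_cast this.symm
  have hlin : HasDerivWithinAt (fun z : ℂ => (s : ℂ) * z) s {z | 0 ≤ z.im} y := by
    have := (hasDerivAt_id (y : ℂ)).const_mul (s : ℂ)
    rw [mul_one] at this
    exact this.hasDerivWithinAt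
  have h4 : HasDerivWithinAt (fun z : ℂ => ψ ((s : ℂ) * z)) (d * s) {z | 0 ≤ z.im} y := by
    rw [← h2] at hd
    refine hd.comp (y : ℂ) hlin fun z hz => ?_
    show 0 ≤ ((s : ℂ) * z).im
    have hz' : 0 ≤ z.im := hz
    rw [Complex.im_ofReal_mul]
    positivity
  have h5 : HasDerivWithinAt φ (d * s) {z | 0 ≤ z.im} y :=
    h4.congr (fun z hz => hsc z hz) (hsc y (by simp))
  have h6 : e = d * s := (uniqueDiff_half y).eq_deriv _ he h5
  rw [h6, h3, norm_mul, Complex.norm_real, Real.norm_of_nonneg hs.le, abs_mul, abs_of_pos hs]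
  ring

theorem exists_gat (hP : NoCut P) (h : IsU ψ P a p) {b ν : ℂ} {r : ℝ}
    (hF : Flat P b ν r) (hp : p ∉ ball b r) (ha : a ∉ ball b r) : ∃ G, 0 < G ∧ GAt P a p b G := by
  obtain ⟨x, d, hx, hd0, hd⟩ := exists_deriv h (h.injOn hP).1 hF hp
  have hx0 : x ≠ 0 := by
    rintro rfl
    rw [Complex.ofReal_zero, h.zero] at hx
    exact ha (hx ▸ mem_ball_self hF.pos)
  have h1 : 0 < ‖d‖ := norm_pos_iff.2 hd0
  have h2 : 0 < |x| := abs_pos.2 hx0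
  exact ⟨1 / (‖d‖ * |x|), by positivity, ψ, x, d, h, hx, hx0, hd0, hd, rfl⟩

/-- **B7u with `GAt`.** -/
theorem b7u_gat (hP : NoCut P) (h : IsU ψ P a p) (hg : ∀ ζ : ℂ, 0 < ζ.im → g (ψ ζ) = ζ)
    {b νa νb : ℂ} {ra rb ηa ηb : ℝ} {φa χ : ℂ → ℝ}
    (hFa : Flat P a νa ra) (hFb : Flat P b νb rb) (hpa : p ∉ ball a ra) (hpb : p ∉ ball b rb)
    (hba : b ∉ ball a ra) (hab : a ∉ ball b rb) (hηa : ηa ≤ ra / 8400) (hηb0 : 0 < ηb)
    (hηb : ηb ≤ rb / 8400) (hsm : ηa / ra + ηb / rb ≤ 1 / 3000)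
    (hφa : Bp P a ηa φa) (hχ : Shp νb χ) {G : ℝ} (hG : GAt P a p b G) :
    0 < G ∧ |Real.exp (sc * en g (ch φa) (ch (scb χ b ηb)) -
        sc * en g (ch (scb χ b ηb)) (ch (scb χ b ηb))) /
      (cs νb χ * (ηb * G) ^ (1 / 3 : ℝ)) - 1| ≤ 6000 * (ηa / ra + ηb / rb) := by
  have hinj := (h.injOn hP).1
  obtain ⟨x, d, hx, hd0, hd⟩ := exists_deriv h hinj hFb hpb
  obtain ⟨hx0, h1⟩ := b7u h hinj hg hFa hFb hpa hpb hba hab hηa hηb0 hηb hsm hφa hχ hx hd hd0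
  have e := gat_eq hP h hx hd hG
  have h2 : 0 < ‖d‖ := norm_pos_iff.2 hd0
  have h3 : 0 < |x| := abs_pos.2 hx0
  refine ⟨by rw [e]; positivity, ?_⟩
  rw [e, mul_one_div]
  exact h1

end Vale.Agent.P167.H411.B7
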