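import Vale.Agent.P164.Bdl.B4
import Vale.Agent.P153.R2.L1.HMax

/-!
# P167, block B7u: distortion of univalent functions near the centre of a disc

Explicit (bad) constants: for `F` univalent on `ball c ρ` and `z, w` within `r ≤ ρ / 200` of `c`,
`‖F z - F w - F' c (z - w)‖ ≤ 4200 (r / ρ) ‖F' c‖ ‖z - w‖`.
-/

open Set Metric Filter Topology

namespace Vale.Agent.P167.H411.B7

theorem univ_deriv_ne {F : ℂ → ℂ} {c : ℂ} {ρ : ℝ} (hρ : 0 < ρ)
    (hF : DifferentiableOn ℂ F (ball c ρ)) (hinj : InjOn F (ball c ρ)) : deriv F c ≠ 0 :=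
  Vale.Agent.P153.R2.L1.injOn_deriv_ne_zero isOpen_ball hF hinj (mem_ball_self hρ)

/-- An omitted value is far away. -/
theorem omit_le {F : ℂ → ℂ} {c : ℂ} {ρ : ℝ} (hρ : 0 < ρ) (hF : DifferentiableOn ℂ F (ball c ρ))
    (hinj : InjOn F (ball c ρ)) {v : ℂ} (hv : v ∉ F '' ball c ρ) :
    ρ * ‖deriv F c‖ / 10 ≤ ‖v - F c‖ := by
  by_contra h
  push Not at h
  exact hv (Vale.Agent.P164.koebe_image hρ hF hinj (by rwa [mem_ball, dist_eq_norm]))

/-- A univalent function is bounded near the centre. -/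
theorem koebe_up {F : ℂ → ℂ} {c : ℂ} {ρ : ℝ} (hρ : 0 < ρ) (hF : DifferentiableOn ℂ F (ball c ρ))
    (hinj : InjOn F (ball c ρ)) {z : ℂ} (hz : z ∈ ball c (ρ / 100)) :
    ‖F z - F c‖ < ρ * ‖deriv F c‖ / 10 := by
  have hd0 := univ_deriv_ne hρ hF hinj
  have hdpos : 0 < ‖deriv F c‖ := norm_pos_iff.2 hd0
  set R : ℝ := ρ * ‖deriv F c‖ / 10 with hR
  have hR0 : 0 < R := by positivity
  have hc : c ∈ ball c ρ := mem_ball_self hρ
  have himg : ball (F c) R ⊆ F '' ball c ρ := Vale.Agent.P164.koebe_image hρ hF hinj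
  -- the inverse function
  set G : ℂ → ℂ := Function.invFunOn F (ball c ρ) with hG
  have hGm : ∀ w ∈ ball (F c) R, G w ∈ ball c ρ ∧ F (G w) = w := fun w hw =>
    ⟨Function.invFunOn_mem (himg hw), Function.invFunOn_eq (himg hw)⟩
  have hGc : G (F c) = c := by
    have h := hGm (F c) (mem_ball_self hR0)
    exact hinj h.1 hc h.2
  have hopen : ∀ s : Set ℂ, s ⊆ ball c ρ → IsOpen s → IsOpen (F '' s) := by
    intro s hs hso
    rw [isOpen_iff_mem_nhds]
    rintro _ ⟨x, hx, rfl⟩
    have hxb := hs hx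
    have han : AnalyticAt ℂ F x := hF.analyticAt (isOpen_ball.mem_nhds hxb)
    have hdx : deriv F x ≠ 0 :=
      Vale.Agent.P153.R2.L1.injOn_deriv_ne_zero isOpen_ball hF hinj hxb
    have hst : HasStrictDerivAt F (deriv F x) x := han.hasStrictDerivAt
    have := hst.map_nhds_eq hdx
    rw [← this]
    exact image_mem_map (hso.mem_nhds hx)
  have hGcont : ∀ w ∈ ball (F c) R, ContinuousAt G w := by
    intro w hw
    have h := hGm w hw
    rw [ContinuousAt, _root_.tendsto_nhds]
    intro s hs hws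
    have h1 : F '' (s ∩ ball c ρ) ∈ 𝓝 w := by
      refine (hopen _ inter_subset_right (hs.inter isOpen_ball)).mem_nhds ?_
      exact ⟨G w, ⟨hws, h.1⟩, h.2⟩
    filter_upwards [h1, isOpen_ball.mem_nhds hw] with y hy hyb
    obtain ⟨x, ⟨hxs, hxb⟩, hxy⟩ := hy
    have h3 := hGm y hyb
    have : G y = x := hinj h3.1 hxb (h3.2.trans hxy.symm)
    rw [mem_preimage, this]
    exact hxs
  have hGd : ∀ w ∈ ball (F c) R, HasDerivAt G (deriv F (G w))⁻¹ w := by
    intro w hw
    have h := hGm w hw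
    have hFd : HasDerivAt F (deriv F (G w)) (G w) :=
      (hF.differentiableAt (isOpen_ball.mem_nhds h.1)).hasDerivAt
    refine hFd.of_local_left_inverse (hGcont w hw)
      (Vale.Agent.P153.R2.L1.injOn_deriv_ne_zero isOpen_ball hF hinj h.1) ?_
    filter_upwards [isOpen_ball.mem_nhds hw] with y hy using (hGm y hy).2
  have hGdiff : DifferentiableOn ℂ G (ball (F c) R) := fun w hw =>
    (hGd w hw).differentiableAt.differentiableWithinAt
  have hGinj : InjOn G (ball (F c) R) := by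
    intro x hx y hy hxy
    rw [← (hGm x hx).2, ← (hGm y hy).2, hxy]
  have h2 := Vale.Agent.P164.koebe_image hR0 hGdiff hGinj
  rw [hGc, (hGd (F c) (mem_ball_self hR0)).deriv, hGc, norm_inv] at h2
  have e : R * ‖deriv F c‖⁻¹ / 10 = ρ / 100 := by
    rw [hR]; field_simp; norm_num
  rw [e] at h2
  obtain ⟨w, hw, hwz⟩ := h2 hz
  have h3 := (hGm w hw).2
  rw [hwz] at h3
  rw [h3, ← dist_eq_norm]
  exact hw

/-- **Distortion near the centre.** -/
theorem koebe_lin {F : ℂ → ℂ} {c : ℂ} {ρ : ℝ} (hρ : 0 < ρ) (hF : DifferentiableOn ℂ F (ball c ρ))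
    (hinj : InjOn F (ball c ρ)) {r : ℝ} (hr : r < ρ / 200) {z w : ℂ}
    (hz : z ∈ closedBall c r) (hw : w ∈ closedBall c r) :
    ‖F z - F w - deriv F c * (z - w)‖ ≤ 4200 * (r / ρ) * ‖deriv F c‖ * ‖z - w‖ := by
  have hsub : ball c (ρ / 100) ⊆ ball c ρ := ball_subset_ball (by linarith)
  set A : ℝ := ‖deriv F c‖ with hA
  have hA0 : 0 ≤ A := norm_nonneg _
  have hApos : 0 < A := norm_pos_iff.2 (univ_deriv_ne hρ hF hinj)
  -- the derivative is bounded
  have hder : ∀ x ∈ ball c (ρ / 200), ‖deriv F x‖ ≤ 20 * A := by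
    intro x hx
    have hb : ∀ y ∈ sphere x (ρ / 200), ‖(fun y => F y - F c) y‖ ≤ ρ * A / 10 := by
      intro y hy
      rw [mem_sphere] at hy
      rw [mem_ball] at hx
      have : y ∈ ball c (ρ / 100) := by
        rw [mem_ball]
        have := dist_triangle y x c
        linarith
      exact (koebe_up hρ hF hinj this).le
    have hdc : DiffContOnCl ℂ (fun y => F y - F c) (ball x (ρ / 200)) := by
      have h1 : closure (ball x (ρ / 200)) ⊆ ball c (ρ / 100) := by
        refine closure_ball_subset_closedBall.trans fun y hy => ?_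
        rw [mem_closedBall] at hy
        rw [mem_ball] at hx ⊢
        have := dist_triangle y x c
        linarith
      have h2 : DifferentiableOn ℂ (fun y => F y - F c) (closure (ball x (ρ / 200))) :=
        (hF.mono (h1.trans hsub)).sub_const _
      exact h2.diffContOnCl
    have h := Complex.norm_deriv_le_of_forall_mem_sphere_norm_le (by positivity) hdc hb
    have e1 : deriv (fun y => F y - F c) x = deriv F x := deriv_sub_const ..
    rw [e1] at h
    refine h.trans (le_of_eq ?_)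
    field_simp
    norm_num
  -- the derivative is almost constant
  have hlip : ∀ x ∈ ball c (ρ / 200), ‖deriv F x - deriv F c‖ ≤ 4200 * A / ρ * dist x c := by
    intro x hx
    have hdd : DifferentiableOn ℂ (deriv F) (ball c (ρ / 200)) :=
      ((hF.analyticOnNhd isOpen_ball).deriv.differentiableOn).mono
        (ball_subset_ball (by linarith))
    have hmaps : MapsTo (deriv F) (ball c (ρ / 200)) (closedBall (deriv F c) (21 * A)) := by
      intro y hy
      rw [mem_closedBall, dist_eq_norm]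
      have := norm_sub_le (deriv F y) (deriv F c)
      have := hder y hy
      linarith
    have h := Complex.dist_le_div_mul_dist_of_mapsTo_ball hdd hmaps hx
    rw [dist_eq_norm (deriv F x)] at h
    refine h.trans (le_of_eq ?_)
    field_simp
    ring
  have hconv : Convex ℝ (closedBall c r) := convex_closedBall c r
  have hsub2 : closedBall c r ⊆ ball c (ρ / 200) := closedBall_subset_ball hr
  have hmv := hconv.norm_image_sub_le_of_norm_hasDerivWithin_le (𝕜 := ℂ)
    (f := fun x => F x - deriv F c * x) (f' := fun x => deriv F x - deriv F c)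
    (C := 4200 * (r / ρ) * A) (x := w) (y := z) ?_ ?_ hw hz
  · have e : F z - F w - deriv F c * (z - w) =
      (F z - deriv F c * z) - (F w - deriv F c * w) := by ring
    rw [e]
    exact hmv
  · intro x hx
    have h1 : HasDerivAt F (deriv F x) x :=
      (hF.differentiableAt (isOpen_ball.mem_nhds
        (ball_subset_ball (by linarith) (hsub2 hx)))).hasDerivAt
    have h2 : HasDerivAt (fun x => deriv F c * x) (deriv F c) x := by
      simpa using (hasDerivAt_id x).const_mul (deriv F c)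
    exact (h1.sub h2).hasDerivWithinAt
  · intro x hx
    refine (hlip x (hsub2 hx)).trans ?_
    rw [mem_closedBall] at hx
    calc 4200 * A / ρ * dist x c ≤ 4200 * A / ρ * r := by gcongr
      _ = 4200 * (r / ρ) * A := by ring

/-- `|log (1 + t)|` for small `t`. -/
theorem abs_log_norm_le {u : ℂ} {t : ℝ} (ht : t ≤ 1 / 2) (hu : ‖u - 1‖ ≤ t) :
    |Real.log ‖u‖| ≤ 2 * t := by
  have ht0 : 0 ≤ t := (norm_nonneg _).trans hu
  have h1 : |‖u‖ - 1| ≤ t := by
    have := abs_norm_sub_norm_le u 1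
    rw [norm_one] at this
    exact this.trans hu
  rw [abs_le] at h1
  have hpos : 0 < ‖u‖ := by linarith
  rw [abs_le]
  constructor
  · have h2 := Real.one_sub_inv_le_log_of_pos hpos
    have h3 : ‖u‖⁻¹ ≤ 1 + 2 * t := by
      rw [inv_le_comm₀ hpos (by linarith), inv_eq_one_div, div_le_iff₀ (by linarith)]
      nlinarith
    linarith
  · have h2 := Real.log_le_sub_one_of_pos hpos
    linarith

/-- **Logarithmic form of the distortion theorem.** -/
theorem log_near {F : ℂ → ℂ} {c : ℂ} {ρ : ℝ} (hρ : 0 < ρ) (hF : DifferentiableOn ℂ F (ball c ρ))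
    (hinj : InjOn F (ball c ρ)) {r : ℝ} (hr : r ≤ ρ / 8400) {z w : ℂ}
    (hz : z ∈ closedBall c r) (hw : w ∈ closedBall c r) (hzw : z ≠ w) :
    |Real.log ‖F z - F w‖ - Real.log ‖deriv F c‖ - Real.log ‖z - w‖| ≤ 8400 * (r / ρ) := by
  have hr0 : 0 ≤ r := dist_nonneg.trans (mem_closedBall.1 hz)
  have h := koebe_lin hρ hF hinj (by linarith : r < ρ / 200) hz hw
  have hd := univ_deriv_ne hρ hF hinj
  have hzw' : z - w ≠ 0 := sub_ne_zero.2 hzw
  have hdz : deriv F c * (z - w) ≠ 0 := mul_ne_zero hd hzw'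
  have hsubs : closedBall c r ⊆ ball c ρ := closedBall_subset_ball (by linarith)
  have hF0 : F z - F w ≠ 0 := by
    rw [sub_ne_zero]
    exact fun e => hzw (hinj (hsubs hz) (hsubs hw) e)
  have e : Real.log ‖F z - F w‖ - Real.log ‖deriv F c‖ - Real.log ‖z - w‖ =
      Real.log ‖(F z - F w) / (deriv F c * (z - w))‖ := by
    rw [norm_div, norm_mul, Real.log_div (norm_ne_zero_iff.2 hF0)
      (mul_ne_zero (norm_ne_zero_iff.2 hd) (norm_ne_zero_iff.2 hzw')),
      Real.log_mul (norm_ne_zero_iff.2 hd) (norm_ne_zero_iff.2 hzw')]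
    ring
  rw [e]
  have h2 : ‖(F z - F w) / (deriv F c * (z - w)) - 1‖ ≤ 4200 * (r / ρ) := by
    rw [div_sub_one hdz, norm_div, norm_mul, div_le_iff₀ (by positivity)]
    calc _ ≤ _ := h
      _ = _ := by ring
  have h3 : 4200 * (r / ρ) ≤ 1 / 2 := by
    have : r / ρ ≤ 1 / 8400 := by
      rw [div_le_iff₀ hρ]; linarith
    linarith
  refine (abs_log_norm_le h3 h2).trans (le_of_eq ?_)
  ring

/-- The distance to the value at the centre, compared with an omitted value. -/
theorem near_omit {F : ℂ → ℂ} {c : ℂ} {ρ : ℝ} (hρ : 0 < ρ) (hF : DifferentiableOn ℂ F (ball c ρ))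
    (hinj : InjOn F (ball c ρ)) {r : ℝ} (hr : r ≤ ρ / 8400) {z : ℂ} (hz : z ∈ closedBall c r)
    {v : ℂ} (hv : v ∉ F '' ball c ρ) : ‖F z - F c‖ ≤ 20 * (r / ρ) * ‖v - F c‖ := by
  have hr0 : 0 ≤ r := dist_nonneg.trans (mem_closedBall.1 hz)
  have h := koebe_lin hρ hF hinj (by linarith : r < ρ / 200) hz (mem_closedBall_self hr0)
  have h1 := omit_le hρ hF hinj hv
  have h3 : 4200 * (r / ρ) ≤ 1 / 2 := by
    have : r / ρ ≤ 1 / 8400 := by
      rw [div_le_iff₀ hρ]; linarith
    linarith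
  have hzc : ‖z - c‖ ≤ r := by rw [← dist_eq_norm]; exact hz
  have h2 : ‖F z - F c‖ ≤ 2 * ‖deriv F c‖ * r := by
    have e : F z - F c = (F z - F c - deriv F c * (z - c)) + deriv F c * (z - c) := by ring
    rw [e]
    refine (norm_add_le _ _).trans ?_
    rw [norm_mul]
    have hA : 0 ≤ ‖deriv F c‖ := norm_nonneg _
    have h4 : 4200 * (r / ρ) * ‖deriv F c‖ * ‖z - c‖ ≤ 1 / 2 * ‖deriv F c‖ * r := by gcongr
    have h5 : ‖deriv F c‖ * ‖z - c‖ ≤ ‖deriv F c‖ * r := by gcongr
    nlinarith [mul_nonneg hA hr0]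
  calc ‖F z - F c‖ ≤ 2 * ‖deriv F c‖ * r := h2
    _ = 20 * (r / ρ) * (ρ * ‖deriv F c‖ / 10) := by field_simp; ring
    _ ≤ 20 * (r / ρ) * ‖v - F c‖ := by gcongr

end Vale.Agent.P167.H411.B7
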