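import Vale.Agent.P167.H411.B7.Swap

/-!
# P167, block B7u: pairings with the Neumann potential
-/

open Set Metric Filter Topology Bornology MeasureTheory
open scoped ComplexConjugate ContDiff

namespace Vale.Agent.P167.H411.B7

open Vale.Agent.P153.R2.R1 Vale.Agent.P167.H756
open Vale.Agent.P167.BVP (Flat nker npot kreg lpot Test)

/-! ### Continuity and integrability -/

section

variable {D : Set ℂ} {g : ℂ → ℂ} {f h : ℂ → ℝ}

theorem integral_add3 {a b c : ℂ → ℝ} (ha : Integrable a) (hb : Integrable b) (hc : Integrable c) :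
    ∫ z, (a z + b z + c z) = (∫ z, a z) + (∫ z, b z) + ∫ z, c z := by
  have e1 : ∫ z, (a z + b z + c z) = (∫ z, (a z + b z)) + ∫ z, c z := integral_add (ha.add hb) hc
  rw [e1, integral_add ha hb]

theorem integral_add4 {a b c d : ℂ → ℝ} (ha : Integrable a) (hb : Integrable b)
    (hc : Integrable c) (hd : Integrable d) :
    ∫ z, (a z + b z + c z + d z) = (∫ z, a z) + (∫ z, b z) + (∫ z, c z) + ∫ z, d z := by
  have e1 : ∫ z, (a z + b z + c z + d z) = (∫ z, (a z + b z + c z)) + ∫ z, d z :=
    integral_add ((ha.add hb).add hc) hd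
  rw [e1, integral_add3 ha hb hc]

theorem npot_contOn (hg : BVP.Conf D g) (hf : Test D f) : ContinuousOn (npot g f) D := by
  obtain ⟨hf1, hf2, hf3⟩ := hf
  have h2 := BVP.harm_param (μ := (volume : Measure ℂ)) hg.isOpen hg.isOpen hf1.continuous hf2 hf3 (BVP.kreg_cont hg)
    fun w hw z hz => BVP.kreg_harm hg hz hw
  have h3 : ContinuousOn (fun z => -(1 / (2 * Real.pi)) * (lpot f z + ∫ w, f w * kreg g z w)) D := by
    intro z hz
    refine ContinuousAt.continuousWithinAt ?_
    exact continuousAt_const.mul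
      ((BVP.lpot_contDiff hf1 hf2).continuous.continuousAt.add (h2 z hz).1.continuousAt)
  refine h3.congr fun z hz => ?_
  exact BVP.npot_eq hg hf1.continuous hf2 hf3 hz

theorem integrable_mul_contOn (hD : IsOpen D) (hh : Test D h) {u : ℂ → ℝ}
    (hu : ContinuousOn u D) : Integrable (fun z => h z * u z) (volume : Measure ℂ) := by
  obtain ⟨h1, h2, h3⟩ := hh
  have hc : Continuous fun z => h z * u z := ?_
  · exact hc.integrable_of_hasCompactSupport h2.mul_right
  refine BVP.cont_ext hD (isClosed_tsupport h) h3 (h1.continuous.continuousOn.mul hu) ?_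
  intro w hw
  rw [image_eq_zero_of_notMem_tsupport hw, zero_mul]

theorem integrable_test (hh : Test D h) : Integrable h (volume : Measure ℂ) :=
  hh.1.continuous.integrable_of_hasCompactSupport hh.2.1

theorem nker_integrable (hg : BVP.Conf D g) (hf : Test D f) {z : ℂ} (hz : z ∈ D) :
    Integrable fun w => f w * nker (g z) (g w) := by
  obtain ⟨hf1, hf2, hf3⟩ := hf
  have i1 := BVP.integrable_log hf1.continuous hf2 z
  have i2 : Integrable fun w => f w * kreg g z w := by
    refine integrable_mul_contOn hg.isOpen ⟨hf1, hf2, hf3⟩ ?_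
    exact (BVP.kreg_cont hg).comp (f := fun w => (z, w)) (by fun_prop) fun w hw => ⟨hz, hw⟩
  refine (i1.add i2).congr ?_
  have hne : ∀ᵐ w : ℂ, w ≠ z := by
    rw [ae_iff]; simp
  filter_upwards [hne] with w hw
  simp only [Pi.add_apply]
  by_cases hwD : w ∈ tsupport f
  · have hwD' := hf3 hwD
    have e : g z - g w = (z - w) * dslope g w z := by
      have := sub_smul_dslope g w z
      rw [smul_eq_mul] at this
      exact this.symm
    have hne1 : z - w ≠ 0 := sub_ne_zero.2 (Ne.symm hw)
    unfold nker kreg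
    rw [e, norm_mul, Real.log_mul (norm_ne_zero_iff.2 hne1)
      (norm_ne_zero_iff.2 (BVP.dslope_ne_zero hg hz hwD'))]
    ring
  · rw [image_eq_zero_of_notMem_tsupport hwD]; ring

/-- **Replacement of the kernel.** -/
theorem en_approx (hg : BVP.Conf D g) (hh : Test D h) (hf : Test D f) {K : ℂ → ℂ → ℝ} {ε : ℝ}
    (hK : ∀ z ∈ tsupport h, ∀ᵐ w : ℂ, w ∈ tsupport f → |nker (g z) (g w) - K z w| ≤ ε)
    (hi : ∀ z ∈ tsupport h, Integrable fun w => f w * K z w)
    (hI : Integrable fun z => h z * ∫ w, f w * K z w) :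
    |(∫ z, h z * npot g f z) + 1 / (2 * Real.pi) * ∫ z, h z * ∫ w, f w * K z w| ≤
      1 / (2 * Real.pi) * (ε * (∫ z, |h z|) * ∫ z, |f z|) := by
  have hc : (0 : ℝ) ≤ 1 / (2 * Real.pi) := by positivity
  have i1 : Integrable fun z => h z * npot g f z :=
    integrable_mul_contOn hg.isOpen hh (npot_contOn hg hf)
  have i2 := hI.const_mul (1 / (2 * Real.pi))
  have e1 : (∫ z, h z * npot g f z) + 1 / (2 * Real.pi) * ∫ z, h z * ∫ w, f w * K z w =
      ∫ z, (h z * npot g f z + 1 / (2 * Real.pi) * (h z * ∫ w, f w * K z w)) := by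
    rw [integral_add i1 i2, integral_const_mul]
  rw [e1]
  have hfa : Integrable fun w => |f w| := (integrable_test hf).abs
  have hbd : ∀ z, ‖h z * npot g f z + 1 / (2 * Real.pi) * (h z * ∫ w, f w * K z w)‖ ≤
      |h z| * (1 / (2 * Real.pi) * (ε * ∫ w, |f w|)) := by
    intro z
    by_cases hz : z ∈ tsupport h
    · have hzD := hh.2.2 hz
      have j1 := nker_integrable hg hf hzD
      have j2 := hi z hz
      have e2 : h z * npot g f z + 1 / (2 * Real.pi) * (h z * ∫ w, f w * K z w) =
          h z * (-(1 / (2 * Real.pi)) * ∫ w, (f w * nker (g z) (g w) - f w * K z w)) := by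
        rw [integral_sub j1 j2]; unfold npot; ring
      rw [e2, norm_mul, norm_mul, Real.norm_eq_abs, Real.norm_eq_abs, abs_neg, abs_of_nonneg hc]
      refine mul_le_mul_of_nonneg_left (mul_le_mul_of_nonneg_left ?_ hc) (abs_nonneg _)
      rw [← integral_const_mul]
      refine norm_integral_le_of_norm_le (hfa.const_mul ε) ?_
      filter_upwards [hK z hz] with w hw
      by_cases hwf : w ∈ tsupport f
      · rw [← mul_sub, norm_mul, Real.norm_eq_abs, Real.norm_eq_abs, mul_comm]
        exact mul_le_mul_of_nonneg_right (hw hwf) (abs_nonneg _)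
      · rw [image_eq_zero_of_notMem_tsupport hwf]; simp
    · rw [image_eq_zero_of_notMem_tsupport hz]; simp
  have hha : Integrable fun z => |h z| := (integrable_test hh).abs
  have hfin := norm_integral_le_of_norm_le
    (hha.mul_const (1 / (2 * Real.pi) * (ε * ∫ w, |f w|))) (Eventually.of_forall hbd)
  rw [integral_mul_const, Real.norm_eq_abs] at hfin
  refine hfin.trans (le_of_eq ?_)
  ring

/-- Constant kernel. -/
theorem en_const (hg : BVP.Conf D g) (hh : Test D h) (hf : Test D f) {L ε : ℝ}
    (hK : ∀ z ∈ tsupport h, ∀ w ∈ tsupport f, |nker (g z) (g w) - L| ≤ ε) :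
    |(∫ z, h z * npot g f z) + 1 / (2 * Real.pi) * (L * (∫ z, h z) * ∫ z, f z)| ≤
      1 / (2 * Real.pi) * (ε * (∫ z, |h z|) * ∫ z, |f z|) := by
  have hih := integrable_test hh
  have hif := integrable_test hf
  have e : ∀ z, h z * ∫ w, f w * L = h z * ((∫ w, f w) * L) := fun z => by
    rw [integral_mul_const]
  have h1 := en_approx hg hh hf (K := fun _ _ => L) (ε := ε)
    (fun z hz => Eventually.of_forall fun w hw => hK z hz w hw) (fun z _ => hif.mul_const L)
    (by simp only [e]; exact hih.mul_const _)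
  simp only [e] at h1
  rw [integral_mul_const] at h1
  convert h1 using 3
  ring

/-- Kernel depending on the second variable. -/
theorem en_right (hg : BVP.Conf D g) (hh : Test D h) (hf : Test D f) {u : ℂ → ℝ} {ε : ℝ}
    (hu : ContinuousOn u D)
    (hK : ∀ z ∈ tsupport h, ∀ w ∈ tsupport f, |nker (g z) (g w) - u w| ≤ ε) :
    |(∫ z, h z * npot g f z) + 1 / (2 * Real.pi) * ((∫ z, h z) * ∫ z, f z * u z)| ≤
      1 / (2 * Real.pi) * (ε * (∫ z, |h z|) * ∫ z, |f z|) := by
  have hih := integrable_test hh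
  have hifu := integrable_mul_contOn hg.isOpen hf hu
  have h1 := en_approx hg hh hf (K := fun _ w => u w) (ε := ε)
    (fun z hz => Eventually.of_forall fun w hw => hK z hz w hw) (fun z _ => hifu)
    (hih.mul_const _)
  rwa [integral_mul_const] at h1

/-- Kernel depending on the first variable. -/
theorem en_left (hg : BVP.Conf D g) (hh : Test D h) (hf : Test D f) {u : ℂ → ℝ} {ε : ℝ}
    (hu : ContinuousOn u D)
    (hK : ∀ z ∈ tsupport h, ∀ w ∈ tsupport f, |nker (g z) (g w) - u z| ≤ ε) :
    |(∫ z, h z * npot g f z) + 1 / (2 * Real.pi) * ((∫ z, h z * u z) * ∫ z, f z)| ≤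
      1 / (2 * Real.pi) * (ε * (∫ z, |h z|) * ∫ z, |f z|) := by
  have hif := integrable_test hf
  have hihu := integrable_mul_contOn hg.isOpen hh hu
  have e : ∀ z, h z * ∫ w, f w * u z = h z * u z * (∫ w, f w) := fun z => by
    rw [integral_mul_const]; ring
  have h1 := en_approx hg hh hf (K := fun z _ => u z) (ε := ε)
    (fun z hz => Eventually.of_forall fun w hw => hK z hz w hw) (fun z _ => hif.mul_const _)
    (by simp only [e]; exact hihu.mul_const _)
  simp only [e] at h1
  rwa [integral_mul_const] at h1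

end

/-! ### The flat self-energy -/

theorem rfn_dist {q ν : ℂ} (hν : ‖ν‖ = 1) (z w : ℂ) : ‖z - rfn q ν w‖ = ‖rfn q ν z - w‖ := by
  have hνν := norm_mul_conj hν
  have e : z - rfn q ν w = -(ν * ν) * conj (rfn q ν z - w) := by
    unfold rfn
    simp only [map_sub, map_mul, Complex.conj_conj]
    linear_combination (-(z - q) * (ν * conj ν) - (z - q)) * hνν
  rw [e, norm_mul, norm_neg, norm_mul, hν, RCLike.norm_conj, one_mul, one_mul]

theorem rfn_cont (q ν : ℂ) : Continuous (rfn q ν) := by
  unfold rfn; fun_prop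

/-- The pairing with the kernel `log |z - w| + log |z - w*|`, `w*` the mirror point. -/
noncomputable def JJ (q ν : ℂ) (h f : ℂ → ℝ) : ℝ := ∫ z, h z * (lpot f z + lpot f (rfn q ν z))

/-- Pairing near a flat boundary point: kernel `u z + u w + L + log |z - w| + log |z - w*|`. -/
theorem en_flat {D : Set ℂ} {g : ℂ → ℂ} {f h : ℂ → ℝ} (hg : BVP.Conf D g) (hh : Test D h)
    (hf : Test D f) {q ν : ℂ} (hν : ‖ν‖ = 1) {u : ℂ → ℝ} {L ε : ℝ} (hu : ContinuousOn u D)
    (hK : ∀ z ∈ tsupport h, ∀ w ∈ tsupport f, z ≠ w →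
      |nker (g z) (g w) - (u z + u w + L + (Real.log ‖z - w‖ + Real.log ‖z - rfn q ν w‖))| ≤ ε) :
    |(∫ z, h z * npot g f z) + 1 / (2 * Real.pi) * ((∫ z, h z * u z) * (∫ z, f z) +
      (∫ z, h z) * (∫ z, f z * u z) + L * (∫ z, h z) * (∫ z, f z) + JJ q ν h f)| ≤
      1 / (2 * Real.pi) * (ε * (∫ z, |h z|) * ∫ z, |f z|) := by
  have hih := integrable_test hh
  have hif := integrable_test hf
  have hihu := integrable_mul_contOn hg.isOpen hh hu
  have hifu := integrable_mul_contOn hg.isOpen hf hu
  have hlc := (BVP.lpot_contDiff hf.1 hf.2.1).continuous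
  have hlc' : Continuous fun z => lpot f z + lpot f (rfn q ν z) :=
    hlc.add (hlc.comp (rfn_cont q ν))
  have i1 : ∀ z, Integrable fun w => f w * Real.log ‖z - w‖ := fun z =>
    BVP.integrable_log hf.1.continuous hf.2.1 z
  have i2 : ∀ z, Integrable fun w => f w * Real.log ‖z - rfn q ν w‖ := fun z => by
    simp only [rfn_dist hν]
    exact BVP.integrable_log hf.1.continuous hf.2.1 _
  have e0 : ∀ z, ∫ w, f w * Real.log ‖z - rfn q ν w‖ = lpot f (rfn q ν z) := fun z => by
    simp only [rfn_dist hν]; rfl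
  have hint : ∀ z, Integrable fun w => f w * (u z + u w + L +
      (Real.log ‖z - w‖ + Real.log ‖z - rfn q ν w‖)) := by
    intro z
    have := (((hif.mul_const (u z)).add hifu).add (hif.mul_const L)).add ((i1 z).add (i2 z))
    refine this.congr (Eventually.of_forall fun w => ?_)
    simp only [Pi.add_apply]; ring
  have e1 : ∀ z, ∫ w, f w * (u z + u w + L + (Real.log ‖z - w‖ + Real.log ‖z - rfn q ν w‖)) =
      (∫ w, f w) * u z + (∫ w, f w * u w) + (∫ w, f w) * L + (lpot f z + lpot f (rfn q ν z)) := by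
    intro z
    have a1 : ∫ w, (f w * u z + f w * u w + f w * L +
        (f w * Real.log ‖z - w‖ + f w * Real.log ‖z - rfn q ν w‖)) =
        (∫ w, f w) * u z + (∫ w, f w * u w) + (∫ w, f w) * L +
          (lpot f z + lpot f (rfn q ν z)) := by
      have b1 := integral_add4 (hif.mul_const (u z)) hifu (hif.mul_const L) ((i1 z).add (i2 z))
      have b2 : ∫ w, (f w * Real.log ‖z - w‖ + f w * Real.log ‖z - rfn q ν w‖) =
          lpot f z + lpot f (rfn q ν z) := by
        rw [integral_add (i1 z) (i2 z), e0]; rfl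
      simp only [Pi.add_apply] at b1
      rw [b1, b2, integral_mul_const, integral_mul_const]
    rw [← a1]
    refine integral_congr_ae (Eventually.of_forall fun w => ?_)
    simp only
    ring
  have hJ : Integrable fun z => h z * (lpot f z + lpot f (rfn q ν z)) :=
    (hh.1.continuous.mul hlc').integrable_of_hasCompactSupport hh.2.1.mul_right
  have e2 : ∀ z, h z * ∫ w, f w * (u z + u w + L +
      (Real.log ‖z - w‖ + Real.log ‖z - rfn q ν w‖)) =
      (h z * u z * (∫ w, f w) + h z * (∫ w, f w * u w) + h z * ((∫ w, f w) * L)) +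
        h z * (lpot f z + lpot f (rfn q ν z)) := by
    intro z; rw [e1]; ring
  have hI0 : Integrable fun z => (h z * u z * (∫ w, f w) + h z * (∫ w, f w * u w) +
      h z * ((∫ w, f w) * L)) :=
    ((hihu.mul_const _).add (hih.mul_const _)).add (hih.mul_const _)
  have e3 := integral_add4 (hihu.mul_const (∫ w, f w)) (hih.mul_const (∫ w, f w * u w))
    (hih.mul_const ((∫ w, f w) * L)) hJ
  have h1 := en_approx hg hh hf (K := fun z w => u z + u w + L +
    (Real.log ‖z - w‖ + Real.log ‖z - rfn q ν w‖)) (ε := ε) ?_ (fun z _ => hint z)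
    (by simp only [e2]; exact hI0.add hJ)
  · simp only [e2] at h1
    rw [e3, integral_mul_const, integral_mul_const, integral_mul_const] at h1
    convert h1 using 3
    unfold JJ
    ring
  · intro z hz
    have hne : ∀ᵐ w : ℂ, w ≠ z := by
      rw [ae_iff]; simp
    filter_upwards [hne] with w hw hwf
    exact hK z hz w hwf (Ne.symm hw)

end Vale.Agent.P167.H411.B7
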