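import Vale.Agent.P167.H411.B7.Pair
import Mathlib.Analysis.Calculus.BumpFunction.Normed
import Mathlib.Analysis.Calculus.BumpFunction.FiniteDimension

/-!
# P167, block B7u: scaled bumps
-/

open Set Metric Filter Topology Bornology MeasureTheory
open scoped ComplexConjugate ContDiff

namespace Vale.Agent.P167.H411.B7

open Vale.Agent.P167.BVP (Flat nker npot kreg lpot Test)

/-- The scaled bump. -/
noncomputable def scb (χ : ℂ → ℝ) (q : ℂ) (η : ℝ) (z : ℂ) : ℝ := χ ((z - q) / η) / η ^ 2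

/-- A bump in `P` near `q`. -/
structure Bp (P : Set ℂ) (q : ℂ) (η : ℝ) (φ : ℂ → ℝ) : Prop where
  test : Test P φ
  supp : tsupport φ ⊆ closedBall q η
  nonneg : ∀ z, 0 ≤ φ z
  mass : ∫ z, φ z = 1

/-- The shape of a bump over a flat side with inner normal `ν`. -/
structure Shp (ν : ℂ) (χ : ℂ → ℝ) : Prop where
  smooth : ContDiff ℝ ∞ χ
  supp : tsupport χ ⊆ closedBall 0 1 ∩ {u | 0 < (u * conj ν).re}
  nonneg : ∀ z, 0 ≤ χ z
  mass : ∫ z, χ z = 1

theorem Shp.compact {ν : ℂ} {χ : ℂ → ℝ} (h : Shp ν χ) : HasCompactSupport χ :=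
  (isCompact_closedBall (0 : ℂ) 1).of_isClosed_subset (isClosed_tsupport χ)
    (h.supp.trans inter_subset_left)

theorem integral_scale (F : ℂ → ℝ) (q : ℂ) {η : ℝ} (hη : 0 < η) :
    ∫ z, F ((z - q) / η) / η ^ 2 = ∫ z, F z := by
  have h1 : ∫ z : ℂ, F ((z - q) / η) / η ^ 2 = ∫ z : ℂ, F (z / η) / η ^ 2 :=
    integral_sub_right_eq_self (fun z : ℂ => F (z / η) / η ^ 2) q
  rw [h1, integral_div]
  have h2 : ∀ z : ℂ, z / η = (η⁻¹ : ℝ) • z := fun z => by
    rw [Complex.real_smul, Complex.ofReal_inv, div_eq_inv_mul]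
  simp only [h2]
  rw [Measure.integral_comp_smul, Complex.finrank_real_complex, smul_eq_mul]
  have h3 : |(η⁻¹ ^ 2)⁻¹| = η ^ 2 := by
    rw [inv_pow, inv_inv, abs_of_pos (by positivity)]
  rw [h3]
  field_simp

theorem scb_mass (χ : ℂ → ℝ) (q : ℂ) {η : ℝ} (hη : 0 < η) : ∫ z, scb χ q η z = ∫ z, χ z :=
  integral_scale χ q hη

theorem lpot_scb {χ : ℂ → ℝ} (hc : Continuous χ) (hs : HasCompactSupport χ) (q : ℂ) {η : ℝ}
    (hη : 0 < η) (z : ℂ) :
    lpot (scb χ q η) z = Real.log η * (∫ w, χ w) + lpot χ ((z - q) / η) := by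
  have hη0 : (η : ℂ) ≠ 0 := by exact_mod_cast hη.ne'
  have h1 : lpot (scb χ q η) z = ∫ u, χ u * Real.log ‖z - q - η * u‖ := by
    rw [← integral_scale (fun u => χ u * Real.log ‖z - q - η * u‖) q hη]
    unfold lpot scb
    refine integral_congr_ae (Eventually.of_forall fun w => ?_)
    simp only
    rw [mul_div_cancel₀ _ hη0]
    have : z - q - (w - q) = z - w := by ring
    rw [this]
    ring
  have h2 : ∫ u, χ u * Real.log ‖z - q - η * u‖ =
      ∫ u, (χ u * Real.log η + χ u * Real.log ‖(z - q) / η - u‖) := by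
    have hne : ∀ᵐ u : ℂ, u ≠ (z - q) / η := by
      rw [ae_iff]; simp
    refine integral_congr_ae ?_
    filter_upwards [hne] with u hu
    have e : z - q - η * u = η * ((z - q) / η - u) := by field_simp
    have h3 : (z - q) / η - u ≠ 0 := sub_ne_zero.2 (Ne.symm hu)
    rw [e, norm_mul, Complex.norm_real, Real.norm_of_nonneg hη.le,
      Real.log_mul hη.ne' (norm_ne_zero_iff.2 h3)]
    ring
  have i1 : Integrable fun u => χ u * Real.log η :=
    (hc.integrable_of_hasCompactSupport hs).mul_const _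
  rw [h1, h2, integral_add i1 (BVP.integrable_log hc hs _), integral_mul_const, mul_comm]
  rfl

theorem rfn_scale (q ν : ℂ) {η : ℝ} (hη : 0 < η) (z : ℂ) :
    (rfn q ν z - q) / η = rfn 0 ν ((z - q) / η) := by
  have hη0 : (η : ℂ) ≠ 0 := by exact_mod_cast hη.ne'
  unfold rfn
  simp only [map_mul, map_div₀, Complex.conj_conj, Complex.conj_ofReal, sub_zero]
  field_simp
  ring

/-- **The self-energy of a scaled bump.** -/
theorem JJ_scb {χ χ' : ℂ → ℝ} (hc : ContDiff ℝ ∞ χ) (hs : HasCompactSupport χ)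
    (hc' : ContDiff ℝ ∞ χ') (hs' : HasCompactSupport χ') (q ν : ℂ) {η : ℝ} (hη : 0 < η) :
    JJ q ν (scb χ q η) (scb χ' q η) =
      2 * Real.log η * (∫ z, χ z) * (∫ z, χ' z) + JJ 0 ν χ χ' := by
  have h1 : JJ q ν (scb χ q η) (scb χ' q η) =
      ∫ u, χ u * (2 * Real.log η * (∫ w, χ' w) + (lpot χ' u + lpot χ' (rfn 0 ν u))) := by
    rw [← integral_scale (fun u => χ u * (2 * Real.log η * (∫ w, χ' w) +
      (lpot χ' u + lpot χ' (rfn 0 ν u)))) q hη]
    unfold JJ
    refine integral_congr_ae (Eventually.of_forall fun z => ?_)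
    simp only
    rw [lpot_scb hc'.continuous hs' q hη, lpot_scb hc'.continuous hs' q hη, rfn_scale q ν hη, scb]
    ring
  rw [h1]
  have hlc := (BVP.lpot_contDiff hc' hs').continuous
  have i1 : Integrable fun u => χ u * (2 * Real.log η * (∫ w, χ' w)) :=
    (hc.continuous.integrable_of_hasCompactSupport hs).mul_const _
  have i2 : Integrable fun u => χ u * (lpot χ' u + lpot χ' (rfn 0 ν u)) :=
    (hc.continuous.mul (hlc.add (hlc.comp (rfn_cont 0 ν)))).integrable_of_hasCompactSupport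
      hs.mul_right
  have e : ∀ u, χ u * (2 * Real.log η * (∫ w, χ' w) + (lpot χ' u + lpot χ' (rfn 0 ν u))) =
      χ u * (2 * Real.log η * (∫ w, χ' w)) + χ u * (lpot χ' u + lpot χ' (rfn 0 ν u)) := fun u => by
    ring
  simp only [e]
  rw [integral_add i1 i2, integral_mul_const]
  unfold JJ
  ring

theorem tsupport_scb {χ : ℂ → ℝ} (q : ℂ) {η : ℝ} {z : ℂ}
    (hz : z ∈ tsupport (scb χ q η)) : (z - q) / η ∈ tsupport χ := by
  have hcl : IsClosed {z : ℂ | (z - q) / η ∈ tsupport χ} :=
    (isClosed_tsupport χ).preimage (by fun_prop)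
  have hsub : tsupport (scb χ q η) ⊆ {z : ℂ | (z - q) / η ∈ tsupport χ} := by
    refine closure_minimal ?_ hcl
    intro z hz
    refine subset_tsupport _ ?_
    intro h0
    apply hz
    simp only [scb, h0, zero_div]
  exact hsub hz

theorem Shp.bp {ν : ℂ} {χ : ℂ → ℝ} (h : Shp ν χ) {P : Set ℂ} {q : ℂ} {r η : ℝ}
    (hF : Flat P q ν r) (hη : 0 < η) (hr : η < r) : Bp P q η (scb χ q η) := by
  have hη0 : (η : ℂ) ≠ 0 := by exact_mod_cast hη.ne'
  have key : ∀ z ∈ tsupport (scb χ q η), z ∈ closedBall q η ∧ 0 < ((z - q) * conj ν).re := by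
    intro z hz
    obtain ⟨h1, h2⟩ := h.supp (tsupport_scb q hz)
    have e : z - q = η * ((z - q) / η) := by field_simp
    constructor
    · rw [mem_closedBall_zero_iff] at h1
      rw [mem_closedBall, dist_eq_norm, e, norm_mul, Complex.norm_real, Real.norm_of_nonneg hη.le]
      calc η * ‖(z - q) / η‖ ≤ η * 1 := by gcongr
        _ = η := mul_one η
    · have h2' : 0 < ((z - q) / η * conj ν).re := h2
      rw [e, mul_assoc, Complex.re_ofReal_mul]
      positivity
  have hsub : tsupport (scb χ q η) ⊆ closedBall q η := fun z hz => (key z hz).1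
  refine ⟨⟨?_, ?_, ?_⟩, hsub, ?_, ?_⟩
  · unfold scb
    exact (h.smooth.comp (by fun_prop)).div_const _
  · exact (isCompact_closedBall q η).of_isClosed_subset (isClosed_tsupport _) hsub
  · intro z hz
    obtain ⟨h1, h2⟩ := key z hz
    exact (hF.mem z (closedBall_subset_ball hr h1)).2 h2
  · intro z
    unfold scb
    have := h.nonneg ((z - q) / η)
    positivity
  · rw [scb_mass χ q hη, h.mass]

/-- Shapes exist. -/
theorem exists_shp {ν : ℂ} (hν : ‖ν‖ = 1) : ∃ χ, Shp ν χ := by
  set B : ContDiffBump (ν / 2 : ℂ) := ⟨1 / 8, 1 / 4, by norm_num, by norm_num⟩ with hB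
  refine ⟨B.normed volume, ?_, ?_, ?_, ?_⟩
  · exact B.contDiff_normed
  · rw [B.tsupport_normed_eq]
    intro z hz
    have hz' : ‖z - ν / 2‖ ≤ 1 / 4 := by
      have := mem_closedBall.1 hz
      rw [dist_eq_norm] at this
      exact this
    constructor
    · rw [mem_closedBall_zero_iff]
      have e : z = (z - ν / 2) + ν / 2 := by ring
      rw [e]
      refine (norm_add_le _ _).trans ?_
      rw [norm_div, hν]
      norm_num
      linarith
    · show 0 < (z * conj ν).re
      have e : z * conj ν = (z - ν / 2) * conj ν + (ν * conj ν) / 2 := by ring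
      rw [e, norm_mul_conj hν, Complex.add_re]
      have h1 : |((z - ν / 2) * conj ν).re| ≤ 1 / 4 := by
        refine (Complex.abs_re_le_norm _).trans ?_
        rw [norm_mul, RCLike.norm_conj, hν, mul_one]
        exact hz'
      have h2 : ((1 : ℂ) / 2).re = 1 / 2 := by norm_num
      rw [h2]
      rw [abs_le] at h1
      linarith [h1.1]
  · intro z
    exact B.nonneg_normed z
  · exact B.integral_normed

end Vale.Agent.P167.H411.B7
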