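import Vale.Agent.P167.H411.B7.Ext

/-!
# P167, block B7u: exchange of the marked points; estimates for the Neumann kernel
-/

open Set Metric Filter Topology Bornology
open scoped ComplexConjugate

namespace Vale.Agent.P167.H411.B7

open Vale.Agent.P153.R2.R1 Vale.Agent.P167.H756
open Vale.Agent.P167.BVP (Flat nker)

variable {ψ : ℂ → ℂ} {P : Set ℂ} {a p : ℂ}

/-- The uniformizer with the roles of the two marked points exchanged. -/
noncomputable def swp (ψ : ℂ → ℂ) (p : ℂ) (ζ : ℂ) : ℂ := if ζ = 0 then p else ψ (-1 / ζ)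

theorem swp_zero : swp ψ p 0 = p := by simp [swp]

theorem swp_ne {ζ : ℂ} (h : ζ ≠ 0) : swp ψ p ζ = ψ (-1 / ζ) := by simp [swp, h]

theorem im_neg_inv (ζ : ℂ) : (-1 / ζ).im = ζ.im / Complex.normSq ζ := by
  rw [neg_div, one_div, Complex.neg_im, Complex.inv_im]; ring

theorem neg_inv_neg_inv (ζ : ℂ) : -1 / (-1 / ζ) = ζ := by
  rw [neg_div, neg_div, one_div, one_div, inv_neg, inv_inv, neg_neg]

theorem im_neg_inv_pos {ζ : ℂ} (h : 0 < ζ.im) : 0 < (-1 / ζ).im := by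
  rw [im_neg_inv]
  have : ζ ≠ 0 := by rintro rfl; simp at h
  exact div_pos h (Complex.normSq_pos.2 this)

theorem im_neg_inv_nonneg {ζ : ℂ} (h : 0 ≤ ζ.im) : 0 ≤ (-1 / ζ).im := by
  rw [im_neg_inv]
  exact div_nonneg h (Complex.normSq_nonneg _)

theorem ne_zero_of_im {ζ : ℂ} (h : 0 < ζ.im) : ζ ≠ 0 := by rintro rfl; simp at h

theorem tendsto_neg_inv_zero :
    Tendsto (fun ζ : ℂ => -1 / ζ) (cobounded ℂ ⊓ 𝓟 {z | 0 ≤ z.im}) (𝓝[{z | 0 ≤ z.im}] 0) := by
  refine tendsto_nhdsWithin_iff.2 ⟨?_, ?_⟩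
  · have h := (tendsto_inv₀_cobounded (α := ℂ)).neg
    rw [neg_zero] at h
    refine (h.mono_left inf_le_left).congr fun ζ => ?_
    rw [neg_div, one_div]
  · filter_upwards [mem_inf_of_right (mem_principal_self _)] with ζ hζ
    exact im_neg_inv_nonneg hζ

theorem tendsto_neg_inv_infty :
    Tendsto (fun ζ : ℂ => -1 / ζ) (𝓝[{z | 0 ≤ z.im} \ {0}] 0)
      (cobounded ℂ ⊓ 𝓟 {z | 0 ≤ z.im}) := by
  rw [tendsto_inf, tendsto_principal]
  constructor
  · have h : Tendsto (fun ζ : ℂ => -ζ⁻¹) (𝓝[≠] 0) (cobounded ℂ) := by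
      have h1 := tendsto_norm_cobounded_atTop.comp (tendsto_inv₀_nhdsNE_zero (α := ℂ))
      rw [← tendsto_norm_atTop_iff_cobounded]
      refine h1.congr fun ζ => ?_
      simp
    refine (h.mono_left (nhdsWithin_mono _ fun ζ hζ => hζ.2)).congr fun ζ => ?_
    rw [neg_div, one_div]
  · filter_upwards [self_mem_nhdsWithin] with ζ hζ
    exact im_neg_inv_nonneg hζ.1

theorem swp_isU (h : IsU ψ P a p) : IsU (swp ψ p) P p a where
  diff := by
    have h1 : DifferentiableOn ℂ (fun ζ : ℂ => ψ (-1 / ζ)) {z | 0 < z.im} := by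
      refine h.diff.comp ?_ fun ζ hζ => im_neg_inv_pos hζ
      intro ζ hζ
      have h0 : ζ ≠ 0 := ne_zero_of_im hζ
      exact ((differentiableAt_const _).div differentiableAt_id h0).differentiableWithinAt
    exact h1.congr fun ζ hζ => swp_ne (ne_zero_of_im hζ)
  inj := by
    intro x hx y hy e
    rw [swp_ne (ne_zero_of_im hx), swp_ne (ne_zero_of_im hy)] at e
    have := h.inj (im_neg_inv_pos hx) (im_neg_inv_pos hy) e
    rw [← neg_inv_neg_inv x, this, neg_inv_neg_inv]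
  img := by
    rw [← h.img]
    ext z
    constructor
    · rintro ⟨ζ, hζ, rfl⟩
      exact ⟨-1 / ζ, im_neg_inv_pos hζ, (swp_ne (ne_zero_of_im hζ)).symm⟩
    · rintro ⟨ζ, hζ, rfl⟩
      refine ⟨-1 / ζ, im_neg_inv_pos hζ, ?_⟩
      rw [swp_ne (ne_zero_of_im (im_neg_inv_pos hζ)), neg_inv_neg_inv]
  cont := by
    intro ζ hζ
    by_cases h0 : ζ = 0
    · subst h0
      have h1 : Tendsto (swp ψ p) (𝓝[{z | 0 ≤ z.im} \ {0}] 0) (𝓝 p) := by
        refine (h.infty.comp tendsto_neg_inv_infty).congr' ?_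
        filter_upwards [self_mem_nhdsWithin] with ζ hζ
        exact (swp_ne hζ.2).symm
      have h2 : ContinuousWithinAt (swp ψ p) ({z | 0 ≤ z.im} \ {0}) 0 := by
        rw [ContinuousWithinAt, swp_zero]; exact h1
      exact continuousWithinAt_sdiff_self.1 h2
    · have h1 : ContinuousWithinAt (fun ζ : ℂ => ψ (-1 / ζ)) {z | 0 ≤ z.im} ζ := by
        refine (h.cont (-1 / ζ) (im_neg_inv_nonneg hζ)).comp ?_ fun ζ hζ => im_neg_inv_nonneg hζ
        exact ((continuousAt_const.div continuousAt_id h0)).continuousWithinAt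
      refine h1.congr_of_eventuallyEq ?_ (swp_ne h0)
      have : ∀ᶠ z in 𝓝 ζ, z ≠ 0 := isOpen_ne.mem_nhds h0
      filter_upwards [mem_nhdsWithin_of_mem_nhds this] with z hz
      exact swp_ne hz
  zero := swp_zero
  infty := by
    have h1 : Tendsto ψ (𝓝[{z | 0 ≤ z.im}] 0) (𝓝 a) := by
      have := h.cont 0 (by simp)
      rwa [ContinuousWithinAt, h.zero] at this
    refine (h1.comp tendsto_neg_inv_zero).congr' ?_
    have h2 : ∀ᶠ ζ : ℂ in cobounded ℂ, ζ ≠ 0 := by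
      have h3 : IsBounded ({0} : Set ℂ) := isBounded_singleton
      filter_upwards [isBounded_def.1 h3] with ζ hζ
      exact hζ
    filter_upwards [mem_inf_of_left h2] with ζ hζ
    exact (swp_ne hζ).symm

theorem swp_inj (hinj : InjOn ψ {z | 0 ≤ z.im}) (hne : ∀ z : ℂ, 0 ≤ z.im → ψ z ≠ p) :
    InjOn (swp ψ p) {z | 0 ≤ z.im} := by
  intro x hx y hy e
  by_cases hx0 : x = 0
  · by_cases hy0 : y = 0
    · rw [hx0, hy0]
    · rw [hx0, swp_zero, swp_ne hy0] at e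
      exact absurd e.symm (hne _ (im_neg_inv_nonneg hy))
  · by_cases hy0 : y = 0
    · rw [hy0, swp_zero, swp_ne hx0] at e
      exact absurd e (hne _ (im_neg_inv_nonneg hx))
    · rw [swp_ne hx0, swp_ne hy0] at e
      have := hinj (im_neg_inv_nonneg hx) (im_neg_inv_nonneg hy) e
      rw [← neg_inv_neg_inv x, this, neg_inv_neg_inv]

theorem ginv_swp (h : IsU ψ P a p) (hinj : InjOn ψ {z | 0 ≤ z.im})
    (hne : ∀ z : ℂ, 0 ≤ z.im → ψ z ≠ p) {z : ℂ} (hz : z ∈ P) :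
    ginv (swp ψ p) z = -1 / ginv ψ z := by
  obtain ⟨h1, h2⟩ := ginv_pos h hinj hz
  have h3 := im_neg_inv_pos h1
  have e : swp ψ p (-1 / ginv ψ z) = z := by
    rw [swp_ne (ne_zero_of_im h3), neg_inv_neg_inv, h2]
  have h4 := ginv_apply (swp_inj hinj hne) h3.le
  rwa [e] at h4

/-! ### The kernel -/

section

variable {G : ℂ → ℂ} {q ν : ℂ} {r η : ℝ}

theorem rfn_norm (hν : ‖ν‖ = 1) (z : ℂ) : ‖rfn q ν z - q‖ = ‖z - q‖ := by
  have e : rfn q ν z - q = -(ν * conj ((z - q) * conj ν)) := by unfold rfn; ring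
  rw [e, norm_neg, norm_mul, RCLike.norm_conj, norm_mul, RCLike.norm_conj, hν, one_mul, mul_one]

/-- Both points near one flat boundary point. -/
theorem ker_near (hX : XT ψ G q ν r) (hF : Flat P q ν r) (hη : η ≤ r / 8400) {z w : ℂ}
    (hz : z ∈ P ∩ closedBall q η) (hw : w ∈ P ∩ closedBall q η) (hzw : z ≠ w) :
    |nker (ginv ψ z) (ginv ψ w) - (2 * Real.log ‖deriv G q‖ + (Real.log ‖z - w‖ +
      Real.log ‖z - rfn q ν w‖))| ≤ 16800 * (η / r) := by
  have hr := hF.pos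
  have hsub : closedBall q η ⊆ ball q r := closedBall_subset_ball (by linarith)
  have ez := hX.eq_mem hF (hsub hz.2) hz.1
  have ew := hX.eq_mem hF (hsub hw.2) hw.1
  have hw' : rfn q ν w ∈ closedBall q η := by
    rw [mem_closedBall, dist_eq_norm, rfn_norm hF.norm, ← dist_eq_norm]; exact hw.2
  have hne : z ≠ rfn q ν w := by
    rintro rfl
    have h1 := (hF.mem _ (hsub hz.2)).1 hz.1
    have h2 := (hF.mem _ (hsub hw.2)).1 hw.1
    rw [rfn_height hF.norm] at h1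
    linarith
  have h1 := log_near hr hX.diff hX.inj hη hz.2 hw.2 hzw
  have h2 := log_near hr hX.diff hX.inj hη hz.2 hw' hne
  rw [hX.symm w (hsub hw.2)] at h2
  unfold nker
  rw [← ez, ← ew]
  rw [abs_le] at h1 h2 ⊢
  constructor <;> linarith [h1.1, h1.2, h2.1, h2.2]

/-- Two points near two different flat boundary points. -/
theorem ker_far {G' : ℂ → ℂ} {q' ν' : ℂ} {r' η' : ℝ} (h : IsU ψ P a p)
    (hinj : InjOn ψ {z | 0 ≤ z.im}) (hX : XT ψ G q ν r) (hF : Flat P q ν r)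
    (hX' : XT ψ G' q' ν' r') (hF' : Flat P q' ν' r') (hp : p ∉ ball q r) (hp' : p ∉ ball q' r')
    (hqq : q' ∉ ball q r) (hqq' : q ∉ ball q' r') (hη : η ≤ r / 8400) (hη' : η' ≤ r' / 8400)
    {z w : ℂ} (hz : z ∈ P ∩ closedBall q η) (hw : w ∈ P ∩ closedBall q' η') :
    ginv ψ q ≠ ginv ψ q' ∧ |nker (ginv ψ z) (ginv ψ w) -
      2 * Real.log ‖ginv ψ q - ginv ψ q'‖| ≤ 80 * (η / r + η' / r') := by
  have hr := hF.pos
  have hr' := hF'.pos
  have hη0 : 0 ≤ η := dist_nonneg.trans (mem_closedBall.1 hz.2)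
  have hη0' : 0 ≤ η' := dist_nonneg.trans (mem_closedBall.1 hw.2)
  have hq : q ∈ ball q r := mem_ball_self hr
  have hq' : q' ∈ ball q' r' := mem_ball_self hr'
  have hqp : q ≠ p := fun e => hp (e ▸ hq)
  have hqp' : q' ≠ p := fun e => hp' (e ▸ hq')
  have hqc : q ∈ closure P := flat_closure hF hq (by simp)
  have hqc' : q' ∈ closure P := flat_closure hF' hq' (by simp)
  obtain ⟨s1, s2⟩ := ginv_spec h hinj hqc hqp
  obtain ⟨t1, t2⟩ := ginv_spec h hinj hqc' hqp'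
  have hne : ginv ψ q ≠ ginv ψ q' := by
    intro e
    apply hqq
    rw [← t2, ← e, s2]
    exact hq
  refine ⟨hne, ?_⟩
  have hD : 0 < ‖ginv ψ q - ginv ψ q'‖ := norm_pos_iff.2 (sub_ne_zero.2 hne)
  have hsub : closedBall q η ⊆ ball q r := closedBall_subset_ball (by linarith)
  have hsub' : closedBall q' η' ⊆ ball q' r' := closedBall_subset_ball (by linarith)
  have ez := hX.eq_mem hF (hsub hz.2) hz.1
  have ew := hX'.eq_mem hF' (hsub' hw.2) hw.1
  have h1 := near_omit hr hX.diff hX.inj hη hz.2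
    (hX.omit h hinj hF hp t1 (by rw [t2]; exact hqq))
  have h2 := near_omit hr' hX'.diff hX'.inj hη' hw.2
    (hX'.omit h hinj hF' hp' s1 (by rw [s2]; exact hqq'))
  rw [ez, hX.center hF, norm_sub_rev (ginv ψ q')] at h1
  rw [ew, hX'.center hF'] at h2
  -- the reality of the centre
  have him : conj (ginv ψ q') = ginv ψ q' := by
    rw [Complex.conj_eq_iff_im, ← hX'.center hF']
    exact hX'.im_center hF'
  set A := ginv ψ q
  set B := ginv ψ q'
  set D : ℝ := ‖A - B‖ with hDd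
  set t : ℝ := 20 * (η / r) + 20 * (η' / r') with ht
  have ht2 : t ≤ 1 / 2 := by
    have a1 : η / r ≤ 1 / 8400 := by rw [div_le_iff₀ hr]; linarith
    have a2 : η' / r' ≤ 1 / 8400 := by rw [div_le_iff₀ hr']; linarith
    rw [ht]; linarith
  have hAB : A - B ≠ 0 := sub_ne_zero.2 hne
  have key : ∀ w' : ℂ, ‖w' - B‖ ≤ 20 * (η' / r') * D →
      |Real.log ‖ginv ψ z - w'‖ - Real.log D| ≤ 2 * t := by
    intro w' hw'
    have h3 : ‖(ginv ψ z - w') / (A - B) - 1‖ ≤ t := by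
      rw [div_sub_one hAB, norm_div, div_le_iff₀ hD]
      have e : ginv ψ z - w' - (A - B) = (ginv ψ z - A) - (w' - B) := by ring
      rw [e]
      calc _ ≤ ‖ginv ψ z - A‖ + ‖w' - B‖ := norm_sub_le _ _
        _ ≤ 20 * (η / r) * D + 20 * (η' / r') * D := add_le_add h1 hw'
        _ = t * D := by rw [ht]; ring
    have h4 := abs_log_norm_le ht2 h3
    have h5 : ginv ψ z - w' ≠ 0 := by
      intro e0
      rw [e0, zero_div, zero_sub, norm_neg, norm_one] at h3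
      linarith
    rwa [norm_div, Real.log_div (norm_ne_zero_iff.2 h5) hD.ne'] at h4
  have k1 := key _ h2
  have k2 := key (conj (ginv ψ w)) (by
    rw [← him, ← map_sub, RCLike.norm_conj]
    exact h2)
  unfold nker
  rw [abs_le] at k1 k2 ⊢
  constructor <;> linarith [k1.1, k1.2, k2.1, k2.2]


theorem ker_inf {H : ℂ → ℂ} (h : IsU ψ P a p) (hinj : InjOn ψ {z | 0 ≤ z.im})
    (hne : ∀ z : ℂ, 0 ≤ z.im → ψ z ≠ p) (hX : XT (swp ψ p) H p ν r) (hF : Flat P p ν r)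
    (ha : a ∉ ball p r) (hη : η ≤ r / 8400) {z w : ℂ} (hz : z ∈ P \ ball p r)
    (hw : w ∈ P ∩ closedBall p η) :
    |nker (ginv ψ z) (ginv ψ w) - 2 * Real.log ‖ginv ψ w‖| ≤ 80 * (η / r) := by
  have hr := hF.pos
  have hη0 : 0 ≤ η := dist_nonneg.trans (mem_closedBall.1 hw.2)
  have hU := swp_isU h
  have hI := swp_inj hinj hne
  have hsub : closedBall p η ⊆ ball p r := closedBall_subset_ball (by linarith)
  have ew : H w = -1 / ginv ψ w := by
    rw [hX.eq_mem hF (hsub hw.2) hw.1, ginv_swp h hinj hne hw.1]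
  have hc : H p = 0 := by
    rw [hX.center hF]
    have h1 := ginv_apply hI (w := 0) (by simp)
    rwa [swp_zero] at h1
  obtain ⟨z1, z2⟩ := ginv_pos h hinj hz.1
  obtain ⟨w1, w2⟩ := ginv_pos h hinj hw.1
  have hz0 := ne_zero_of_im z1
  have hw0 := ne_zero_of_im w1
  have h3 := near_omit hr hX.diff hX.inj hη hw.2 (hX.omit hU hI hF ha
    (im_neg_inv_pos z1).le (by
      rw [swp_ne (ne_zero_of_im (im_neg_inv_pos z1)), neg_inv_neg_inv, z2]; exact hz.2))
  rw [hc, sub_zero, sub_zero, ew, norm_div, norm_div, norm_neg, norm_one] at h3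
  have hzn : 0 < ‖ginv ψ z‖ := norm_pos_iff.2 hz0
  have hwn : 0 < ‖ginv ψ w‖ := norm_pos_iff.2 hw0
  have h4 : ‖ginv ψ z‖ / ‖ginv ψ w‖ ≤ 20 * (η / r) := by
    calc ‖ginv ψ z‖ / ‖ginv ψ w‖ = 1 / ‖ginv ψ w‖ * ‖ginv ψ z‖ := by ring
      _ ≤ 20 * (η / r) * (1 / ‖ginv ψ z‖) * ‖ginv ψ z‖ := by gcongr
      _ = 20 * (η / r) := by field_simp
  have ht2 : 20 * (η / r) ≤ 1 / 2 := by
    have a1 : η / r ≤ 1 / 8400 := by rw [div_le_iff₀ hr]; linarith
    linarith
  have key : ∀ w' : ℂ, ‖w'‖ = ‖ginv ψ w‖ →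
      |Real.log ‖ginv ψ z - w'‖ - Real.log ‖ginv ψ w‖| ≤ 2 * (20 * (η / r)) := by
    intro w' hw'
    have hw'0 : w' ≠ 0 := norm_pos_iff.1 (hw' ▸ hwn)
    have h5 : ‖(ginv ψ z - w') / (-w') - 1‖ ≤ 20 * (η / r) := by
      have e : (ginv ψ z - w') / (-w') - 1 = -(ginv ψ z / w') := by
        field_simp; ring
      rw [e, norm_neg, norm_div, hw']
      exact h4
    have h6 := abs_log_norm_le ht2 h5
    have h7 : ginv ψ z - w' ≠ 0 := by
      intro e0
      rw [e0, zero_div, zero_sub, norm_neg, norm_one] at h5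
      linarith
    rwa [norm_div, norm_neg, hw', Real.log_div (norm_ne_zero_iff.2 h7) hwn.ne'] at h6
  have k1 := key _ rfl
  have k2 := key (conj (ginv ψ w)) (RCLike.norm_conj _)
  unfold nker
  rw [abs_le] at k1 k2 ⊢
  constructor <;> linarith [k1.1, k1.2, k2.1, k2.2]

/-- Both points near `p`. -/
theorem ker_near_inf {H : ℂ → ℂ} (h : IsU ψ P a p) (hinj : InjOn ψ {z | 0 ≤ z.im})
    (hne : ∀ z : ℂ, 0 ≤ z.im → ψ z ≠ p) (hX : XT (swp ψ p) H p ν r) (hF : Flat P p ν r)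
    (hη : η ≤ r / 8400) {z w : ℂ} (hz : z ∈ P ∩ closedBall p η)
    (hw : w ∈ P ∩ closedBall p η) (hzw : z ≠ w) :
    |nker (ginv ψ z) (ginv ψ w) - (2 * Real.log ‖ginv ψ z‖ + 2 * Real.log ‖ginv ψ w‖ +
      2 * Real.log ‖deriv H p‖ + (Real.log ‖z - w‖ + Real.log ‖z - rfn p ν w‖))| ≤
      16800 * (η / r) := by
  obtain ⟨z1, z2⟩ := ginv_pos h hinj hz.1
  obtain ⟨w1, w2⟩ := ginv_pos h hinj hw.1
  have hz0 := ne_zero_of_im z1
  have hw0 := ne_zero_of_im w1
  have h1 := ker_near hX hF hη hz hw hzw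
  rw [ginv_swp h hinj hne hz.1, ginv_swp h hinj hne hw.1] at h1
  have hgne : ginv ψ z - ginv ψ w ≠ 0 := by
    rw [sub_ne_zero]
    exact fun e => hzw ((ginv_conf h hinj).inj hz.1 hw.1 e)
  have hgne' : ginv ψ z - conj (ginv ψ w) ≠ 0 := BVP.sub_conj_ne z1 w1
  have hcw : conj (ginv ψ w) ≠ 0 := by
    rw [Ne, map_eq_zero]; exact hw0
  have e1 : -1 / ginv ψ z - -1 / ginv ψ w = (ginv ψ z - ginv ψ w) / (ginv ψ z * ginv ψ w) := by
    field_simp
    ring
  have e2 : -1 / ginv ψ z - conj (-1 / ginv ψ w) =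
      (ginv ψ z - conj (ginv ψ w)) / (ginv ψ z * conj (ginv ψ w)) := by
    rw [map_div₀, map_neg, map_one]
    field_simp
    ring
  have e3 : nker (-1 / ginv ψ z) (-1 / ginv ψ w) = nker (ginv ψ z) (ginv ψ w) -
      2 * Real.log ‖ginv ψ z‖ - 2 * Real.log ‖ginv ψ w‖ := by
    unfold nker
    have n1 := norm_ne_zero_iff.2 hz0
    have n2 := norm_ne_zero_iff.2 hw0
    rw [e1, e2, norm_div, norm_div, norm_mul, norm_mul, RCLike.norm_conj,
      Real.log_div (norm_ne_zero_iff.2 hgne) (mul_ne_zero n1 n2),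
      Real.log_div (norm_ne_zero_iff.2 hgne') (mul_ne_zero n1 n2), Real.log_mul n1 n2]
    ring
  rw [e3] at h1
  rw [abs_le] at h1 ⊢
  constructor <;> linarith [h1.1, h1.2]

end

end Vale.Agent.P167.H411.B7
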